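import Vale.Agent.P213Z.Sing

/-! # Affine simplices and the contraction estimate -/

namespace Vale.Agent.P213Z

open CategoryTheory Simplicial Opposite Topology
open Vale.Agent.P246.T (Dl)
open Vale.Agent.P178.H924

variable {k l n : ℕ}

/-- the pairing with a function on the vertices -/
def pr (f : Fin (n + 1) → ℝ) (t : Dl (n + 1)) : ℝ := ∑ i, t i * f i

theorem dl_sum (t : Dl (n + 1)) : ∑ i, t i = 1 := t.2.2

theorem dl_nn (t : Dl (n + 1)) (i) : 0 ≤ t i := t.2.1 i

theorem pr_single (i : Fin (n + 1)) (t : Dl (n + 1)) : pr (Pi.single i 1) t = t i := by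
  simp [pr, Pi.single_apply]

theorem dl_ext {s t : Dl (n + 1)} (h : ∀ f, pr f s = pr f t) : s = t := by
  refine Subtype.ext (funext fun i => ?_)
  have := h (Pi.single i 1)
  rwa [pr_single, pr_single] at this

/-- the affine simplex with given vertices -/
def aff (p : Fin (k + 1) → Dl (n + 1)) : C(Dl (k + 1), Dl (n + 1)) where
  toFun t := ⟨fun i => ∑ j, t j * p j i,
    fun i => Finset.sum_nonneg fun j _ => mul_nonneg (dl_nn t j) (dl_nn (p j) i), by
      rw [Finset.sum_comm]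
      simp only [← Finset.mul_sum, dl_sum, mul_one]⟩
  continuous_toFun := by
    refine Continuous.subtype_mk (continuous_pi fun i => continuous_finsetSum _ fun j _ => ?_) _
    exact ((continuous_apply j).comp continuous_subtype_val).mul continuous_const

theorem aff_apply (p : Fin (k + 1) → Dl (n + 1)) (t) (i) : aff p t i = ∑ j, t j * p j i := rfl

theorem pr_aff (f : Fin (n + 1) → ℝ) (p : Fin (k + 1) → Dl (n + 1)) (t) :
    pr f (aff p t) = pr (fun j => pr f (p j)) t := by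
  simp only [pr, aff_apply, Finset.sum_mul, Finset.mul_sum, mul_assoc]
  exact Finset.sum_comm

theorem pr_am (f : Fin (n + 1) → ℝ) (g : ⦋k⦌ ⟶ ⦋n⦌) (t) :
    pr f (am g t) = pr (fun j => f (g j)) t := by
  simp only [pr, am_apply, Finset.sum_mul]
  rw [← Finset.sum_fiberwise (s := Finset.univ) (g := fun j : Fin (k + 1) => (g j : Fin (n + 1)))]
  refine Finset.sum_congr rfl fun i _ => Finset.sum_congr rfl fun j hj => ?_
  rw [(Finset.mem_filter.1 hj).2]

/-- a vertex -/
noncomputable def vx (i : Fin (n + 1)) : Dl (n + 1) := stdSimplex.vertex i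

theorem pr_vx (f : Fin (n + 1) → ℝ) (i) : pr f (vx i) = f i := by
  simp [pr, vx, Pi.single_apply]

/-- the midpoint of two vertices -/
noncomputable def mid (a c : Fin (n + 1)) : Dl (n + 1) :=
  ⟨fun i => (vx a i + vx c i) / 2, fun i => by
    have := dl_nn (vx a) i
    have := dl_nn (vx c) i
    positivity, by
    rw [← Finset.sum_div, Finset.sum_add_distrib, dl_sum, dl_sum]
    norm_num⟩

theorem pr_mid (f : Fin (n + 1) → ℝ) (a c) : pr f (mid a c) = (f a + f c) / 2 := by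
  rw [← pr_vx f a, ← pr_vx f c, pr, pr, pr, ← Finset.sum_add_distrib, Finset.sum_div]
  refine Finset.sum_congr rfl fun i _ => ?_
  change (vx a i + vx c i) / 2 * f i = _
  ring

theorem aff_am (p : Fin (k + 1) → Dl (n + 1)) (g : ⦋l⦌ ⟶ ⦋k⦌) (t) :
    aff p (am g t) = aff (fun j => p (g j)) t :=
  dl_ext fun f => by rw [pr_aff, pr_am, pr_aff]

theorem am_aff (p : Fin (l + 1) → Dl (k + 1)) (g : ⦋k⦌ ⟶ ⦋n⦌) (t) :
    am g (aff p t) = aff (fun j => am g (p j)) t :=
  dl_ext fun f => by simp only [pr_aff, pr_am]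

theorem aff_aff (q : Fin (k + 1) → Dl (n + 1)) (p : Fin (l + 1) → Dl (k + 1)) (t) :
    aff q (aff p t) = aff (fun j => aff q (p j)) t :=
  dl_ext fun f => by simp only [pr_aff]

theorem aff_vx (g : ⦋k⦌ ⟶ ⦋n⦌) (t) : aff (fun j => vx (g j)) t = am g t :=
  dl_ext fun f => by simp only [pr_aff, pr_am, pr_vx]

theorem am_vx (g : ⦋k⦌ ⟶ ⦋n⦌) (i : Fin (k + 1)) : am g (vx i) = vx (g i) :=
  dl_ext fun f => by simp only [pr_am, pr_vx]

theorem am_mid (g : ⦋k⦌ ⟶ ⦋n⦌) (a c : Fin (k + 1)) : am g (mid a c) = mid (g a) (g c) :=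
  dl_ext fun f => by simp only [pr_am, pr_mid]

/-- total variation at most `r` -/
def Dom (r : ℝ) (f : Fin (n + 1) → ℝ) : Prop :=
  ∃ F : Fin (n + 1) → ℝ, (∀ i, 0 ≤ F i ∧ F i ≤ r) ∧ ∀ i i', i ≤ i' → |f i' - f i| ≤ F i' - F i

/-- contraction of the total variation by the factor `c` -/
def Ctr (c : ℝ) (p : Fin (k + 1) → Dl (n + 1)) : Prop :=
  ∀ f r, Dom r f → Dom (c * r) fun j => pr f (p j)

theorem Ctr.mono {c c' : ℝ} (h : c ≤ c') {p : Fin (k + 1) → Dl (n + 1)} (hp : Ctr c p) :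
    Ctr c' p := by
  intro f r hf
  obtain ⟨G, h1, h2⟩ := hp f r hf
  obtain ⟨F, h3, -⟩ := hf
  have hr : 0 ≤ r := (h3 0).1.trans (h3 0).2
  exact ⟨G, fun i => ⟨(h1 i).1, (h1 i).2.trans (mul_le_mul_of_nonneg_right h hr)⟩, h2⟩

theorem Ctr.comp {c c' : ℝ} {q : Fin (k + 1) → Dl (n + 1)} {p : Fin (l + 1) → Dl (k + 1)}
    (hq : Ctr c' q) (hp : Ctr c p) : Ctr (c * c') fun j => aff q (p j) := by
  intro f r hf
  simp only [pr_aff]
  rw [mul_assoc]
  exact hp _ _ (hq f r hf)

theorem ctr_vx (g : ⦋k⦌ ⟶ ⦋n⦌) : Ctr 1 fun j : Fin (k + 1) => vx (n := n) (g j) := by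
  rintro f r ⟨F, h1, h2⟩
  simp only [pr_vx, one_mul]
  exact ⟨fun j => F (g j), fun j => h1 _, fun j j' h => h2 _ _ (g.toOrderHom.monotone h)⟩

theorem ctr_mid {a c : Fin (k + 1) → Fin (n + 1)} (ha : Antitone a) (hc : Monotone c)
    (hac : ∀ j, a j ≤ c j) : Ctr (1 / 2) fun j => mid (a j) (c j) := by
  rintro f r ⟨F, h1, h2⟩
  simp only [pr_mid]
  refine ⟨fun j => (F (c j) - F (a j)) / 2, fun j => ⟨?_, ?_⟩, fun j j' h => ?_⟩
  · have := (abs_nonneg _).trans (h2 _ _ (hac j))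
    linarith
  · have := (h1 (c j)).2
    have := (h1 (a j)).1
    linarith
  · have e1 := abs_le.1 (h2 _ _ (ha h))
    have e2 := abs_le.1 (h2 _ _ (hc h))
    rw [abs_le]
    constructor <;> linarith [e1.1, e1.2, e2.1, e2.2]

theorem ctr_hty {a c : Fin (k + 1) → Fin (n + 1)} (ha : Antitone a) (hc : Monotone c)
    (hac : ∀ j, a j ≤ c j) {e : Fin (k + 1) → Fin 2} (he : Monotone e) :
    Ctr 1 fun j => if e j = 0 then mid (a j) (c j) else vx (c j) := by
  rintro f r ⟨F, h1, h2⟩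
  refine ⟨fun j => if e j = 0 then (F (c j) - F (a j)) / 2 else F (c j), fun j => ?_,
    fun j j' h => ?_⟩
  · have := (abs_nonneg _).trans (h2 _ _ (hac j))
    have := h1 (c j)
    have := h1 (a j)
    dsimp only
    split_ifs
    · constructor <;> linarith
    · constructor <;> linarith
  · have e1 := abs_le.1 (h2 _ _ (ha h))
    have e2 := abs_le.1 (h2 _ _ (hc h))
    have e3 := abs_le.1 (h2 _ _ ((hac j).trans (hc h)))
    have e4 := h1 (a j)
    dsimp only
    rw [abs_le]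
    by_cases hj : e j = 0
    · by_cases hj' : e j' = 0
      · simp only [if_pos hj, if_pos hj', pr_mid]
        constructor <;> linarith [e1.1, e1.2, e2.1, e2.2]
      · simp only [if_pos hj, if_neg hj', pr_mid, pr_vx]
        constructor <;> linarith [e3.1, e3.2, e2.1, e2.2]
    · have hj' : e j' ≠ 0 := fun h0 => hj (Fin.le_zero_iff.1 (h0 ▸ he h))
      simp only [if_neg hj, if_neg hj', pr_vx]
      constructor <;> linarith [e2.1, e2.2]

theorem dom_single (i : Fin (n + 1)) : Dom 2 (Pi.single i 1 : Fin (n + 1) → ℝ) := by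
  refine ⟨fun j => if j < i then 0 else if j = i then 1 else 2, fun j => ?_, fun j j' h => ?_⟩
  · dsimp only
    split_ifs <;> norm_num
  · simp only [Pi.single_apply]
    split_ifs <;> first | omega | norm_num

theorem Ctr.dist_le {c : ℝ} {p : Fin (k + 1) → Dl (n + 1)} (hp : Ctr c p) (t) :
    dist (aff p t) (p 0) ≤ c * 2 := by
  obtain ⟨F, hF, -⟩ := hp _ _ (dom_single 0)
  have hc : 0 ≤ c * 2 := (hF 0).1.trans (hF 0).2
  refine (dist_pi_le_iff hc).2 fun i => ?_
  obtain ⟨G, h1, h2⟩ := hp _ _ (dom_single i)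
  simp only [pr_single] at h2
  have e : aff p t i - p 0 i = ∑ j, t j * (p j i - p 0 i) := by
    simp only [mul_sub, Finset.sum_sub_distrib, ← Finset.sum_mul, dl_sum, one_mul, aff_apply]
  change |aff p t i - p 0 i| ≤ _
  rw [e]
  refine (Finset.abs_sum_le_sum_abs _ _).trans ?_
  refine (Finset.sum_le_sum (g := fun j => t j * (c * 2)) fun j _ => ?_).trans ?_
  · rw [abs_mul, abs_of_nonneg (dl_nn t j)]
    refine mul_le_mul_of_nonneg_left ((h2 0 j (Fin.zero_le j)).trans ?_) (dl_nn t j)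
    linarith [(h1 j).2, (h1 0).1]
  · rw [← Finset.sum_mul, dl_sum, one_mul]

end Vale.Agent.P213Z
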