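import Vale.Agent.P213Z.Aff

/-! # The theorem of small simplices -/

namespace Vale.Agent.P213Z

open CategoryTheory Simplicial Opposite Topology MonoidalCategory Limits PartialOrder
open CartesianMonoidalCategory
open Vale.Agent.P246.T (Dl)
open Vale.Agent.P178.H924
open Vale.Agent.P213

variable {T : TopCat.{0}}

/-- chains -/
abbrev Chn (n : ℕ) : Type := NonemptyFiniteChains (ULift.{0} (Fin (n + 1)))

/-- greatest element -/
noncomputable def mx {n : ℕ} (σ : Chn n) : Fin (n + 1) := (σ.finset.max' σ.nonempty).down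

/-- least element -/
noncomputable def mn {n : ℕ} (σ : Chn n) : Fin (n + 1) := (σ.finset.min' σ.nonempty).down

theorem mx_mono {n : ℕ} {σ τ : Chn n} (h : σ ≤ τ) : mx σ ≤ mx τ := Finset.max'_subset _ h

theorem mn_anti {n : ℕ} {σ τ : Chn n} (h : σ ≤ τ) : mn τ ≤ mn σ := Finset.min'_subset _ h

theorem mn_le_mx {n : ℕ} (σ : Chn n) : mn σ ≤ mx σ := Finset.min'_le_max' σ.finset σ.nonempty

theorem min'_map {α β : Type} [LinearOrder α] [LinearOrder β] (g : α →o β)
    (A : NonemptyFiniteChains α) :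
    (A.map g).finset.min' (A.map g).nonempty = g (A.finset.min' A.nonempty) := by
  apply le_antisymm
  · refine Finset.min'_le _ _ ?_
    rw [NonemptyFiniteChains.mem_map_iff]
    exact ⟨_, Finset.min'_mem _ _, rfl⟩
  · refine Finset.le_min' _ _ _ (fun y hy => ?_)
    rw [NonemptyFiniteChains.mem_map_iff] at hy
    obtain ⟨z, hz, rfl⟩ := hy
    exact g.monotone (Finset.min'_le _ _ hz)

/-- the label of a chain -/
noncomputable def lab {n : ℕ} (e : ⦋n⦌ ⟶ ⦋1⦌) (σ : Chn n) : Dl (n + 1) :=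
  if (e (mx σ) : Fin 2) = 0 then mid (mn σ) (mx σ) else vx (mx σ)

/-- the chains of a simplex of the subdivision -/
def chn {n : ℕ} {k : SimplexCategoryᵒᵖ} (s : (SimplexCategory.sd.{0}.obj ⦋n⦌).obj k)
    (j : Fin (k.unop.len + 1)) : Chn n := s.obj j

theorem chn_mono {n : ℕ} {k : SimplexCategoryᵒᵖ} (s : (SimplexCategory.sd.{0}.obj ⦋n⦌).obj k) :
    Monotone (chn s) := fun _ _ h => leOfHom (s.map (homOfLE h))

theorem ctr_lab {n : ℕ} (e : ⦋n⦌ ⟶ ⦋1⦌) {k : SimplexCategoryᵒᵖ}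
    (s : (SimplexCategory.sd.{0}.obj ⦋n⦌).obj k) : Ctr 1 fun j => lab e (chn s j) :=
  ctr_hty (fun _ _ h => mn_anti (chn_mono s h)) (fun _ _ h => mx_mono (chn_mono s h))
    (fun _ => mn_le_mx _) fun _ _ h => e.toOrderHom.monotone (mx_mono (chn_mono s h))

theorem ctr_lab₀ {n : ℕ} (e : ⦋n⦌ ⟶ ⦋1⦌) (he : ∀ i, (e i : Fin 2) = 0) {k : SimplexCategoryᵒᵖ}
    (s : (SimplexCategory.sd.{0}.obj ⦋n⦌).obj k) : Ctr (1 / 2) fun j => lab e (chn s j) := by
  simp only [lab, if_pos (he _)]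
  exact ctr_mid (fun _ _ h => mn_anti (chn_mono s h)) (fun _ _ h => mx_mono (chn_mono s h))
    (fun _ => mn_le_mx _)

theorem lab_map {m n : ℕ} (g : ⦋m⦌ ⟶ ⦋n⦌) (e : ⦋n⦌ ⟶ ⦋1⦌) {k : SimplexCategoryᵒᵖ}
    (s : (SimplexCategory.sd.{0}.obj ⦋m⦌).obj k) (j) :
    lab e (chn ((SimplexCategory.sd.map g).app k s) j) = am g (lab (g ≫ e) (chn s j)) := by
  let g' : ULift.{0} (Fin (m + 1)) →o ULift.{0} (Fin (n + 1)) :=
    (SimplexCategory.toPartOrd.map g).hom
  have h1 : mx (chn ((SimplexCategory.sd.map g).app k s) j) = g (mx (chn s j)) :=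
    congrArg ULift.down (KQ.max'_map g' (chn s j))
  have h2 : mn (chn ((SimplexCategory.sd.map g).app k s) j) = g (mn (chn s j)) :=
    congrArg ULift.down (min'_map g' (chn s j))
  rw [lab, lab, h1, h2]
  have h3 : ((g ≫ e) (mx (chn s j)) : Fin 2) = e (g (mx (chn s j))) := rfl
  rw [h3]
  split_ifs
  · rw [am_mid]
  · rw [am_vx]

/-- the subdivided simplex -/
noncomputable def piece {n : ℕ} (x : C(Dl (n + 1), T)) (e : ⦋n⦌ ⟶ ⦋1⦌) :
    SimplexCategory.sd.{0}.obj ⦋n⦌ ⟶ Sg T :=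
  toSg (fun _ s => x.comp (aff fun j => lab e (chn s j))) fun _ _ g s t =>
    congrArg x (aff_am (fun j => lab e (chn s j)) g.unop t).symm

theorem sx_piece {n : ℕ} (x : C(Dl (n + 1), T)) (e : ⦋n⦌ ⟶ ⦋1⦌) {k} (s) (t) :
    sx ((piece x e).app k s) t = x (aff (fun j => lab e (chn s j)) t) := rfl

/-- the subdivision operator and its homotopy -/
noncomputable def exH {Y : SSet.{0}} (a : Y ⟶ Sg T) (e : Y ⟶ Δ[1]) (A : (Sg T).Subcomplex)
    (h : ∀ n y k s, (piece (sx (a.app n y)) (SSet.stdSimplex.objEquiv (e.app n y))).app k s ∈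
      A.obj k) : Y ⟶ SSet.ex.obj A where
  app n := ↾fun y => ULift.up (SSet.Subcomplex.lift
    (piece (sx (a.app n y)) (SSet.stdSimplex.objEquiv (e.app n y))) (by
      rintro k _ ⟨s, rfl⟩
      exact h n y k s))
  naturality n m g := by
    ext y
    apply ULift.down_injective
    refine SSet.hom_ext fun k => ConcreteCategory.hom_ext _ _ fun s => ?_
    apply Subtype.ext
    apply sx_inj
    intro t
    change sx (a.app m (Y.map g y)) (aff (fun j => lab (SSet.stdSimplex.objEquiv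
      (e.app m (Y.map g y))) (chn s j)) t) = sx (a.app n y) (aff (fun j => lab
        (SSet.stdSimplex.objEquiv (e.app n y)) (chn ((SimplexCategory.sd.map g.unop).app k s) j)) t)
    rw [NatTrans.naturality_apply a, NatTrans.naturality_apply e, sx_map]
    congr 1
    refine (am_aff _ _ _).trans ?_
    congr 2
    funext j
    exact (lab_map g.unop _ s j).symm

variable (U V : Set T)

/-- small maps -/
def Sm {D : Type} (x : D → T) : Prop := (∀ t, x t ∈ U) ∨ ∀ t, x t ∈ V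

theorem Sm.comp {U V : Set T} {D E : Type} {x : D → T} (h : Sm U V x) (α : E → D) :
    Sm U V fun t => x (α t) := h.imp (fun h _ => h _) fun h _ => h _

/-- small simplices -/
def Small : (Sg T).Subcomplex := Sub (fun _ x => Sm U V x) fun _ _ _ _ hx => hx.comp _

/-- the filtration -/
def Fl (c : ℝ) : (Sg T).Subcomplex :=
  Sub (fun n x => ∀ k (p : Fin (k + 1) → Dl (n + 1)), Ctr c p → Sm U V fun t => x (aff p t))
    fun m n g x hx k p hp => by
      have h1 := (ctr_vx g).comp hp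
      rw [mul_one] at h1
      have h2 := hx k _ h1
      simp only [aff_vx, ← am_aff] at h2
      exact h2

variable {U V}

theorem Fl_anti {c c' : ℝ} (h : c ≤ c') : Fl U V c' ≤ Fl U V c :=
  fun _ _ hx k p hp => hx k p (hp.mono h)

theorem piece_mem {c c' : ℝ} {n} {x : (Sg T).obj n} (hx : x ∈ (Fl U V (c * c')).obj n) (e) {k} (s)
    (hs : Ctr c' fun j => lab e (chn s j)) : (piece (sx x) e).app k s ∈ (Fl U V c).obj k := by
  intro l p hp
  have h2 := hx l _ (hs.comp hp)
  simp only [← aff_aff] at h2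
  exact h2

/-- the constant simplex -/
noncomputable abbrev e₀ (Y : SSet.{0}) : Y ⟶ Δ[1] := SSet.ι₀ ≫ snd Y Δ[1]

/-- the subdivision operator on the filtration -/
noncomputable def bF (c c' : ℝ) (h : c' * (1 / 2) ≤ c) :
    (Fl U V c : SSet.{0}) ⟶ SSet.ex.obj (Fl U V c') :=
  exH (Fl U V c).ι (e₀ _) _ fun _ y _ s =>
    piece_mem (Fl_anti h _ y.2) _ s (ctr_lab₀ _ (fun _ => rfl) s)

theorem whe_bF (c : ℝ) (h : c * (1 / 2) ≤ c) : whe (bF (U := U) (V := V) c c h) := by
  refine whe.of_htpyE (HtpyE.symm (Htpy.toE ⟨exH (fst _ _ ≫ (Fl U V c).ι) (snd _ _) _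
    fun _ y _ s => piece_mem (by rw [mul_one]; exact y.1.2) _ s (ctr_lab _ s), rfl, ?_⟩))
    (whe_toEx _)
  ext n x
  apply ULift.down_injective
  refine SSet.hom_ext fun k => ConcreteCategory.hom_ext _ _ fun s => ?_
  apply Subtype.ext
  apply sx_inj
  intro t
  let θ : k.unop ⟶ n.unop := SSet.stdSimplex.objEquiv ((KQ.lastVertex.app n.unop).app k s)
  have h1 : ((toEx.app (Fl U V c : SSet.{0})).app n x).down.app k s =
      (Fl U V c : SSet.{0}).map θ.op x := rfl
  refine Eq.trans ?_ (congrArg (fun z : (Fl U V c : SSet.{0}).obj k => sx z.1 t) h1).symm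
  change sx x.1 (aff (fun j => vx (mx (chn s j))) t) = sx x.1 (am θ t)
  rw [← aff_vx]
  rfl

theorem whe_Fl_step (c : ℝ) (hc : 0 ≤ c) :
    whe (SSet.Subcomplex.homOfLE (Fl_anti (U := U) (V := V) (show c * (1 / 2) ≤ c by linarith))) := by
  refine whe_of_six (g := bF (c * (1 / 2)) c le_rfl) (h := SSet.ex.map
    (SSet.Subcomplex.homOfLE (Fl_anti (U := U) (V := V) (show c * (1 / 2) ≤ c by linarith)))) ?_ ?_
  · exact whe_bF c (by linarith)
  · exact whe_bF (c * (1 / 2)) (by linarith)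

theorem Small_le (c : ℝ) : Small U V ≤ Fl U V c := fun _ _ hx _ _ _ => Sm.comp hx _

theorem Small_eq : Small U V = Fl U V 1 := by
  refine le_antisymm (Small_le 1) fun n x hx => ?_
  have h := hx _ _ (ctr_vx (𝟙 ⦋n.unop.len⦌))
  simp only [aff_vx, am_id] at h
  exact h

theorem exists_Fl (hU : IsOpen U) (hV : IsOpen V) (hUV : ∀ p, p ∈ U ∨ p ∈ V) {n}
    (x : (Sg T).obj n) : ∃ m : ℕ, x ∈ (Fl U V ((1 / 2) ^ m)).obj n := by
  obtain ⟨δ, hδ, h⟩ := lebesgue_number_lemma_of_metric (s := Set.univ)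
    (c := fun b : Bool => sx x ⁻¹' (cond b U V)) isCompact_univ
    (fun b => by cases b; exacts [hV.preimage (sx x).continuous, hU.preimage (sx x).continuous])
    (fun t _ => by
      rcases hUV (sx x t) with h | h
      · exact Set.mem_iUnion.2 ⟨true, h⟩
      · exact Set.mem_iUnion.2 ⟨false, h⟩)
  obtain ⟨m, hm⟩ := exists_pow_lt_of_lt_one (half_pos hδ) (show (1 / 2 : ℝ) < 1 by norm_num)
  refine ⟨m, fun k p hp => ?_⟩
  obtain ⟨b, hb⟩ := h (p 0) trivial
  have h2 : ∀ t, sx x (aff p t) ∈ cond b U V := fun t =>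
    hb (Metric.mem_ball.2 ((hp.dist_le t).trans_lt (by linarith)))
  cases b
  · exact Or.inr h2
  · exact Or.inl h2

/-- the theorem of small simplices -/
theorem whe_small (hU : IsOpen U) (hV : IsOpen V) (hUV : ∀ p, p ∈ U ∨ p ∈ V) :
    whe (Small U V).ι := by
  refine whe_of_chains _ ⟨fun _ => ⊤, monotone_const⟩
    ⟨fun m => Fl U V ((1 / 2) ^ m), fun _ _ h => Fl_anti
      (pow_le_pow_of_le_one (by norm_num) (by norm_num) h)⟩ (by simp) ?_
    (fun m => (SSet.Subcomplex.topIso _).hom ≫ SSet.Subcomplex.homOfLE (Small_le _))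
    (fun _ => rfl) fun m => whe.comp (whe_of_isIso _) ?_
  · rw [← top_le_iff]
    intro n x _
    rw [Subfunctor.iSup_obj, Set.mem_iUnion]
    exact exists_Fl hU hV hUV x
  · induction m with
    | zero =>
      have h : Small U V = Fl U V ((1 / 2) ^ 0) := by rw [pow_zero]; exact Small_eq
      exact whe_of_isIso (SSet.Subcomplex.eqToIso h).hom
    | succ m ih =>
      exact ih.comp (whe_Fl_step ((1 / 2) ^ m) (by positivity))

end Vale.Agent.P213Z
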