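import Vale.Agent.P213Z.Rad
import Vale.Agent.P213Z.Small

/-! # The unit of realization and singular complex is a weak equivalence -/

namespace Vale.Agent.P213Z

open CategoryTheory Simplicial Opposite Topology Limits
open Vale.Agent.P246.T (Dl)
open Vale.Agent.P178.H924
open Vale.Agent.P213

section step

variable {n : ℕ} {A₀ A B₀ B : SSet.{0}} {t : A₀ ⟶ A} {l : A₀ ⟶ B₀} {r : A ⟶ B} {b : B₀ ⟶ B}

theorem Sk.nd_iff {j : A ⟶ B} (hj : Sk n j) (σ : B _⦋n⦌) :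
    σ ∈ B.nonDegenerate n ↔ ¬ ∃ τ, j.app _ τ = σ := by
  refine ⟨fun h h' => lt_irrefl n ((hj n σ h).1 h'), fun h hσ => h ?_⟩
  obtain ⟨m, hm, f, y, rfl⟩ := hσ
  obtain ⟨k, s, _, ⟨z, hz⟩, rfl⟩ := B.exists_nonDegenerate y
  obtain ⟨τ, rfl⟩ := (hj k z hz).2 ((SimplexCategory.len_le_of_epi s).trans_lt hm)
  exact ⟨A.map f.op (A.map s.op τ), by rw [NatTrans.naturality_apply j, NatTrans.naturality_apply j]⟩

/-- the data of a cell attachment -/
structure Att (n : ℕ) (t : A₀ ⟶ A) (l : A₀ ⟶ B₀) (r : A ⟶ B) (b : B₀ ⟶ B) : Prop where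
  sq : IsPushout t l r b
  ml : Mono l
  mr : Mono r
  hl : Sk n l
  hr : Sk n r
  d₀ : B₀.HasDimensionLT (n + 1)
  d : B.HasDimensionLT (n + 1)

namespace Att

variable (h : Att n t l r b)
include h

theorem sqn (k) : IsPushout (l.app k) (t.app k) (b.app k) (r.app k) :=
  h.sq.flip.map ((evaluation _ _).obj k)

theorem nd {σ : B₀ _⦋n⦌} (hσ : σ ∈ B₀.nonDegenerate n) : b.app _ σ ∈ B.nonDegenerate n := by
  have := h.ml
  rw [h.hr.nd_iff]
  rintro ⟨τ, hτ⟩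
  obtain ⟨a, ha, -⟩ := (Types.pushoutCocone_inl_eq_inr_iff_of_isColimit (h.sqn _).isColimit
    (app_inj l _) σ τ).1 hτ.symm
  exact (h.hl.nd_iff σ).1 hσ ⟨a, ha⟩

theorem inj {σ τ : B₀ _⦋n⦌} (hσ : σ ∈ B₀.nonDegenerate n) (e : b.app _ σ = b.app _ τ) : σ = τ := by
  have := h.ml
  obtain h1 | ⟨a, -, ha, -⟩ := Sequence.eq_or_of_isPushout (h.sqn _) (app_inj l _) σ τ e
  · exact h1
  · exact absurd ⟨a, ha⟩ ((h.hl.nd_iff σ).1 hσ)

theorem surj {σ : B _⦋n⦌} (hσ : σ ∈ B.nonDegenerate n) :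
    ∃ τ ∈ B₀.nonDegenerate n, b.app _ τ = σ := by
  obtain ⟨τ, rfl⟩ | h1 := Types.eq_or_eq_of_isPushout (h.sqn _) σ
  · exact ⟨τ, fun h2 => hσ (SSet.degenerate_app_apply h2 b), rfl⟩
  · exact absurd h1 ((h.hr.nd_iff σ).1 hσ)

theorem mem_VV {p} : rm b p ∈ VV n B ↔ p ∈ VV n B₀ := by
  have := h.d₀
  have := h.mr
  constructor
  · intro hp
    by_contra h1
    obtain ⟨a, rfl⟩ := h.hl.mem h1
    rw [← rm_comp, ← h.sq.w, rm_comp] at hp
    exact h.hr.notMem _ hp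
  · rintro ⟨σ, u, hσ, hu, rfl⟩
    exact ⟨_, u, h.nd hσ, hu, (rm_chr _ _ _).symm⟩

theorem mem_UU {p} : rm b p ∈ UU n B ↔ p ∈ UU n B₀ := by
  by_cases hp : p ∈ VV n B₀
  · obtain ⟨σ, u, hσ, hu, rfl⟩ := hp
    rw [rm_chr, mem_UU_iff hσ, mem_UU_iff (h.nd hσ)]
  · exact ⟨fun _ => mem_UU_of hp, fun _ => mem_UU_of (mt h.mem_VV.1 hp)⟩

theorem injOn {p q} (hp : p ∈ VV n B₀) (hq : q ∈ VV n B₀) (e : rm b p = rm b q) : p = q := by
  obtain ⟨σ, u, hσ, hu, rfl⟩ := hp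
  obtain ⟨τ, v, hτ, hv, rfl⟩ := hq
  rw [rm_chr, rm_chr] at e
  obtain ⟨h1, rfl⟩ := top_eq (h.nd hτ) hv e
  rw [h.inj hσ h1]

theorem emb : IsEmbedding fun p : VV n B₀ => rm b p := by
  have := h.d₀
  have := h.d
  refine (IsOpenEmbedding.of_continuous_injective_isOpenMap (f := fun p : VV n B₀ => rm b p)
    ((rm b).continuous.comp continuous_subtype_val)
    (fun p q e => Subtype.ext (h.injOn p.2 q.2 e)) fun O hO => ?_).isEmbedding
  have hO' : IsOpen (Subtype.val '' O) := isOpen_VV.isOpenMap_subtype_val O hO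
  refine isOpen_nd (nd_cases (n := n) (fun k σ hk => ?_) fun σ hσ => ?_)
  · rw [show chr B σ ⁻¹' ((fun p : VV n B₀ => rm b p) '' O) = ∅ from
      Set.eq_empty_of_forall_notMem fun u ⟨p, _, e⟩ =>
        notMem_VV hk σ u (by rw [← e]; exact h.mem_VV.2 p.2)]
    exact isOpen_empty
  · obtain ⟨τ, hτ, rfl⟩ := h.surj hσ
    have : chr B (b.app _ τ) ⁻¹' ((fun p : VV n B₀ => rm b p) '' O) =
        chr B₀ τ ⁻¹' (Subtype.val '' O) := by
      ext u
      constructor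
      · rintro ⟨p, hp, e⟩
        rw [← rm_chr] at e
        exact ⟨p, hp, h.injOn p.2 (h.mem_VV.1 (by rw [← e]; exact h.mem_VV.2 p.2)) e⟩
      · rintro ⟨p, hp, e⟩
        exact ⟨p, hp, by rw [← rm_chr, ← e]⟩
    rw [this]
    exact hO'.preimage (chr B₀ τ).continuous

theorem lift {D : Type} [TopologicalSpace D] (x : C(D, Re B)) (hx : ∀ u, x u ∈ VV n B) :
    ∃ y : C(D, Re B₀), (∀ u, y u ∈ VV n B₀) ∧ ∀ u, rm b (y u) = x u := by
  obtain ⟨y, hy⟩ := lift_emb h.emb x fun u => by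
    obtain ⟨σ, v, hσ, hv, e⟩ := hx u
    obtain ⟨τ, hτ, rfl⟩ := h.surj hσ
    exact ⟨⟨_, τ, v, hτ, hv, rfl⟩, (rm_chr _ _ _).trans e⟩
  exact ⟨⟨fun u => y u, continuous_subtype_val.comp y.continuous⟩, fun u => (y u).2, hy⟩

/-- the map on the collars -/
noncomputable def sU : (SubU (UU n B₀) : SSet.{0}) ⟶ SubU (UU n B) :=
  SSet.Subcomplex.lift ((SubU _).ι ≫ TopCat.toSSet.map (SSet.toTop.map b)) (by
    rintro k _ ⟨x, rfl⟩ u
    exact h.mem_UU.2 (x.2 u))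

/-- the map on small simplices -/
noncomputable def sS : (Small (UU n B₀) (VV n B₀) : SSet.{0}) ⟶ Small (UU n B) (VV n B) :=
  SSet.Subcomplex.lift ((Small _ _).ι ≫ TopCat.toSSet.map (SSet.toTop.map b)) (by
    rintro k _ ⟨x, rfl⟩
    exact x.2.imp (fun hx u => h.mem_UU.2 (hx u)) fun hx u => h.mem_VV.2 (hx u))

omit h in
theorem le_small {T : TopCat.{0}} (U V : Set T) : SubU U ≤ Small U V := fun _ _ hx => Or.inl hx

theorem sq₃ : IsPushout h.sU (SSet.Subcomplex.homOfLE (le_small _ _))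
    (SSet.Subcomplex.homOfLE (le_small _ _)) h.sS := by
  apply Sequence.isPushout_of_levelwise
  · rfl
  · intro k x y e
    have h1 := congrArg Subtype.val e
    exact Subtype.ext h1
  · intro k x y e
    have h1 := congrArg Subtype.val e
    exact Subtype.ext h1
  · intro k x y e
    refine ⟨⟨y.1, fun u => h.mem_UU.1 ?_⟩, rfl⟩
    have h1 : sx x.1 u = rm b (sx y.1 u) := congrArg (fun z => sx z.1 u) e
    exact h1 ▸ x.2 u
  · rintro k ⟨x, hx | hx⟩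
    · exact Or.inl ⟨⟨x, hx⟩, rfl⟩
    · obtain ⟨y, h1, h2⟩ := h.lift (sx x) hx
      exact Or.inr ⟨⟨xs k y, Or.inr h1⟩, Subtype.ext (sx_inj h2)⟩
  · rintro k ⟨x, hx | hx⟩ ⟨y, hy | hy⟩ h1 h2 e
    · exact absurd ⟨⟨x, hx⟩, rfl⟩ h1
    · exact absurd ⟨⟨x, hx⟩, rfl⟩ h1
    · exact absurd ⟨⟨y, hy⟩, rfl⟩ h2
    · refine Subtype.ext (sx_inj fun u => h.injOn (hx u) (hy u) ?_)
      have h3 := congrArg (fun z => sx z.1 u) e
      exact h3

theorem step (h₁ : whe (eta A₀)) (h₂ : whe (eta A)) (h₃ : whe (eta B₀)) : whe (eta B) := by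
  have := h.d₀
  have := h.d
  have := h.ml
  have := h.mr
  have sq₂ := IsPushout.of_hasPushout (SubU (UU n B₀)).ι h.sU
  let c : pushout (SubU (UU n B₀)).ι h.sU ⟶ Sg (SSet.toTop.obj B) :=
    sq₂.desc (TopCat.toSSet.map (SSet.toTop.map b)) (SubU _).ι rfl
  have c1 : pushout.inl _ _ ≫ c = _ := sq₂.inl_desc _ _ _
  have c2 : pushout.inr _ _ ≫ c = _ := sq₂.inr_desc _ _ _
  have cov : ∀ (X : SSet.{0}) (p : Re X), p ∈ UU n X ∨ p ∈ VV n X := fun X p =>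
    (em _).symm.imp_left mem_UU_of
  have hc : whe c := by
    let p := h.sq₃.flip.desc ((Small _ _).ι ≫ pushout.inl (SubU (UU n B₀)).ι h.sU)
      (pushout.inr _ _) sq₂.w
    have p1 : _ ≫ p = _ := h.sq₃.flip.inl_desc _ _ _
    have p2 : _ ≫ p = _ := h.sq₃.flip.inr_desc _ _ _
    refine whe.cancel_pre (whe_gluing h.sq₃.flip sq₂ (𝟙 _) (Small _ _).ι (𝟙 _) p rfl rfl p1
      (p2.trans (Category.id_comp _).symm) (whe_of_isIso _)
      (whe_small isOpen_UU isOpen_VV (cov _)) (whe_of_isIso _)) ?_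
    have : p ≫ c = (Small _ _).ι := by
      apply h.sq₃.flip.hom_ext
      · rw [reassoc_of% p1, c1]
        rfl
      · rw [reassoc_of% p2, c2]
        rfl
    rw [this]
    exact whe_small isOpen_UU isOpen_VV (cov _)
  let a₀ := eta A₀ ≫ toSubU (SSet.toTop.map l) (UU n B₀) fun a => mem_UU_of (h.hl.notMem a)
  let a := eta A ≫ toSubU (SSet.toTop.map r) (UU n B) fun a => mem_UU_of (h.hr.notMem a)
  have e1 : l ≫ eta B₀ = a₀ ≫ (SubU _).ι := eta_nat l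
  have e3 : a ≫ (SubU _).ι = r ≫ eta B := (eta_nat r).symm
  have e2 : t ≫ a = a₀ ≫ h.sU := by
    rw [← cancel_mono (SubU _).ι, Category.assoc, e3, h.sq.w_assoc, eta_nat b, reassoc_of% e1]
    rfl
  let p := h.sq.flip.desc (eta B₀ ≫ pushout.inl (SubU (UU n B₀)).ι h.sU) (a ≫ pushout.inr _ _) (by
    rw [reassoc_of% e1, reassoc_of% e2, sq₂.w])
  have p1 : _ ≫ p = _ := h.sq.flip.inl_desc _ _ _
  have p2 : _ ≫ p = _ := h.sq.flip.inr_desc _ _ _
  have hp := whe_gluing h.sq.flip sq₂ a₀ (eta B₀) a p e1 e2 p1 p2 (h₁.comp h.hl.whe) h₃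
    (h₂.comp h.hr.whe)
  have : p ≫ c = eta B := by
    apply h.sq.flip.hom_ext
    · rw [reassoc_of% p1, c1, eta_nat b]
    · rw [reassoc_of% p2, c2, e3]
  exact this ▸ hp.comp hc

end Att

end step

theorem whe_eta_zero (X : SSet.{0}) [X.HasDimensionLT 1] : whe (eta X) := by
  have hd : DiscreteTopology (Re X) := by
    refine ⟨eq_bot_of_singletons_open fun p => isOpen_nd fun k σ hσ => ?_⟩
    obtain rfl : k = 0 := Nat.lt_one_iff.1 (X.dim_lt_of_nonDegenerate ⟨σ, hσ⟩ 1)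
    have : Subsingleton (Dl (0 + 1)) := inferInstanceAs (Subsingleton (stdSimplex ℝ (Fin 1)))
    exact isOpen_discrete _
  have hs : Subsingleton (Dl (0 + 1)) := inferInstanceAs (Subsingleton (stdSimplex ℝ (Fin 1)))
  have hi : ∀ u : Dl (0 + 1), Inr u := fun u => by
    obtain ⟨k, δ, hδ, s, hs, e⟩ := exists_inr u
    obtain rfl : k = 0 := Nat.le_zero.1 (SimplexCategory.len_le_of_mono δ)
    exact (Subsingleton.elim s u) ▸ hs
  have : IsIso (eta X) := by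
    rw [NatTrans.isIso_iff_isIso_app]
    rintro ⟨⟨k⟩⟩
    rw [isIso_iff_bijective]
    constructor
    · intro x y e
      obtain ⟨m, s, _, ⟨σ, hσ⟩, rfl⟩ := X.exists_nonDegenerate (n := k) x
      obtain ⟨m', s', _, ⟨σ', hσ'⟩, rfl⟩ := X.exists_nonDegenerate (n := k) y
      obtain rfl : m = 0 := Nat.lt_one_iff.1 (X.dim_lt_of_nonDegenerate ⟨σ, hσ⟩ 1)
      obtain rfl : m' = 0 := Nat.lt_one_iff.1 (X.dim_lt_of_nonDegenerate ⟨σ', hσ'⟩ 1)
      have h1 : chr X (X.map s.op σ) (vx 0) = chr X (X.map s'.op σ') (vx 0) :=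
        congrArg (fun z => sx z (vx 0)) e
      rw [chr_am, chr_am] at h1
      obtain rfl := (top_eq hσ' (hi _) h1).1
      obtain rfl : s = s' := Subsingleton.elim _ _
      rfl
    · intro x
      obtain ⟨m, σ, u, hσ, -, e⟩ := exists_nd (sx x (vx 0))
      obtain rfl : m = 0 := Nat.lt_one_iff.1 (X.dim_lt_of_nonDegenerate ⟨σ, hσ⟩ 1)
      refine ⟨X.map (SimplexCategory.const ⦋k⦌ ⦋0⦌ 0).op σ, sx_inj fun v => ?_⟩
      refine (chr_am _ _ _).trans ?_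
      rw [Subsingleton.elim (am _ v) u, e]
      have : PreconnectedSpace (Dl (k + 1)) :=
        isPreconnected_iff_preconnectedSpace.1 (convex_stdSimplex ℝ _).isPreconnected
      exact (IsLocallyConstant.iff_continuous _).2 (sx x).continuous |>.apply_eq_of_preconnectedSpace _ _
  exact whe_of_isIso _

end Vale.Agent.P213Z
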