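import Vale.Agent.P213.SX.Defs
import Mathlib.AlgebraicTopology.SingularSet
import Mathlib.Topology.Homotopy.Equiv

/-!
Statement-level definitions for P213 with the weak equivalences of simplicial sets defined through
the geometric realization.
-/

open CategoryTheory HomotopicalAlgebra Simplicial SSet.modelCategoryQuillen

namespace Vale.Agent.P213Z

open Vale.Agent.P213.SX (IsModel IsProper)

/-- Weak homotopy equivalences of simplicial sets: the maps whose geometric realization is a
homotopy equivalence of topological spaces. -/
def weq : MorphismProperty SSet.{0} := fun X Y f =>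
  ∃ e : ContinuousMap.HomotopyEquiv (SSet.toTop.obj X) (SSet.toTop.obj Y),
    e.toFun = (SSet.toTop.map f).hom

section

variable {D : Type 1} [Category.{0} D]

/-- Quillen equivalences between simplicial sets and `D`: the left adjoint preserves cofibrations
and trivial cofibrations, and a map `L K ⟶ Y` is a weak equivalence iff its adjunct is one. -/
def IsQuillenEquivalence {L : SSet.{0} ⥤ D} {R : D ⥤ SSet.{0}} (adj : L ⊣ R)
    (cof w : MorphismProperty D) : Prop :=
  (∀ K K' (i : K ⟶ K'), Mono i → cof (L.map i) ∧ (weq i → w (L.map i))) ∧
  ∀ K Y (f : L.obj K ⟶ Y), w f ↔ weq (adj.unit.app K ≫ R.map f)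

variable (N : D ⥤ SSet.{0})

/-- Thomason weak equivalences. -/
def thW : MorphismProperty D := weq.inverseImage N

/-- Thomason fibrations. -/
def thF : MorphismProperty D := J.rlp.inverseImage (N ⋙ SSet.ex ⋙ SSet.ex)

/-- Thomason cofibrations. -/
def thC : MorphismProperty D := (thF N ⊓ thW N).llp

/-- The Kan-Quillen classes and the Thomason classes form model structures, the latter is proper
and combinatorial (`D` is locally presentable, and the images of the boundary inclusions and
of the horn inclusions are generating cofibrations and generating trivial cofibrations), `N`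
has a left adjoint, and for every left adjoint `c` the adjunction `c Sd² ⊣ Ex² N` is a Quillen
equivalence. -/
def IsThomason : Prop :=
  IsModel (.monomorphisms SSet.{0}) weq J.rlp ∧ IsModel (thC N) (thW N) (thF N) ∧
  IsProper (thC N) (thW N) (thF N) ∧ IsLocallyPresentable.{0} D ∧
  N.IsRightAdjoint ∧ ∀ c (h : c ⊣ N), IsQuillenEquivalence
    ((SSet.sdExAdjunction.comp SSet.sdExAdjunction).comp h) (thC N) (thW N) ∧
    (I.map ((SSet.sd ⋙ SSet.sd) ⋙ c)).rlp = thF N ⊓ thW N ∧
    (J.map ((SSet.sd ⋙ SSet.sd) ⋙ c)).rlp = thF N

end

end Vale.Agent.P213Z
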