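import Mathlib.AlgebraicTopology.SingularSet
import Mathlib.Topology.Homotopy.HomotopyGroup
import Mathlib.CategoryTheory.ObjectProperty.FullSubcategory
import Mathlib.Data.ENat.Basic
import Mathlib.Data.Fintype.Powerset
import Mathlib.Data.Finset.Union

/-!
Statement-level definitions for P213, part 1: weak homotopy equivalences, strict globular
higher categories, and the cells of Street's orientals.
-/

open CategoryTheory Finset
open scoped Topology.Homotopy

namespace Vale.Agent.P213Z.G

section

variable {X Y : Type} [TopologicalSpace X] [TopologicalSpace Y] (f : C(X, Y))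

theorem joined_map ⦃x y : X⦄ (h : Joined x y) : Joined (f x) (f y) :=
  ⟨h.somePath.map f.continuous⟩

/-- The map induced on the sets of path components. -/
def piZeroMap : ZerothHomotopy X → ZerothHomotopy Y := Quotient.map f (joined_map f)

theorem loop_mem {n : ℕ} {x : X} (p : Ω^ (Fin n) X x) : f.comp p.1 ∈ Ω^ (Fin n) Y (f x) :=
  fun y hy => congrArg f (p.2 y hy)

/-- The map induced on `n`-dimensional loops. -/
def loopMap (n : ℕ) (x : X) (p : Ω^ (Fin n) X x) : Ω^ (Fin n) Y (f x) := ⟨f.comp p.1, loop_mem f p⟩

theorem loopMap_rel (n : ℕ) (x : X) ⦃p q : Ω^ (Fin n) X x⦄ (h : GenLoop.Homotopic p q) :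
    GenLoop.Homotopic (loopMap f n x p) (loopMap f n x q) := h.comp_continuousMap f

/-- The map induced on the `n`-th homotopy groups. -/
def piMap (n : ℕ) (x : X) : HomotopyGroup (Fin n) X x → HomotopyGroup (Fin n) Y (f x) :=
  Quotient.map (loopMap f n x) (loopMap_rel f n x)

/-- Weak homotopy equivalences of spaces: bijections on path components and on all homotopy
groups at all base points. -/
def IsWHE : Prop :=
  Function.Bijective (piZeroMap f) ∧ ∀ (n : ℕ) (x : X), Function.Bijective (piMap f (n + 1) x)

end

/-- Weak homotopy equivalences of simplicial sets: the geometric realization is a weak homotopy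
equivalence of spaces. -/
def weq : MorphismProperty SSet.{0} := fun _ _ f => IsWHE (SSet.toTop.map f).hom

/-- Small strict globular omega-categories: `C k` is the set of `k`-cells; for `j < k`,
`d false` and `d true` are the iterated source and target `C k → C j`, `e` is the iterated
identity `C j → C k`, and `cmp` is the composition of `k`-cells along a `j`-cell. -/
structure GCat where
  C : ℕ → Type
  d : Bool → ∀ {j k : ℕ}, j < k → C k → C j
  e : ∀ {j k : ℕ}, j < k → C j → C k
  cmp : ∀ {j k : ℕ} (h : j < k) (x y : C k), d true h x = d false h y → C k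
  dd a b {i j k} (h : i < j) (h' : j < k) x : d a h (d b h' x) = d a (h.trans h') x
  ee {i j k} (h : i < j) (h' : j < k) x : e h' (e h x) = e (h.trans h') x
  de a {j k} (h : j < k) x : d a h (e h x) = x
  src {j k} (h : j < k) x y p : d false h (cmp h x y p) = d false h x
  tgt {j k} (h : j < k) x y p : d true h (cmp h x y p) = d true h y
  dcmp a {i j k} (h : i < j) (h' : j < k) x y p q :
    d a h' (cmp (h.trans h') x y p) = cmp h (d a h' x) (d a h' y) q
  ecmp {i j k} (h : i < j) (h' : j < k) x y p q :
    e h' (cmp h x y p) = cmp (h.trans h') (e h' x) (e h' y) q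
  idl {j k} (h : j < k) x p : cmp h (e h (d false h x)) x p = x
  idr {j k} (h : j < k) x p : cmp h x (e h (d true h x)) p = x
  asc {j k} (h : j < k) x y z p q p' q' : cmp h (cmp h x y p) z p' = cmp h x (cmp h y z q) q'
  inter {i j k} (h : i < k) (h' : j < k) (_ : i < j) x y z w p q p' q' r r' :
    cmp h (cmp h' x y p) (cmp h' z w q) r = cmp h' (cmp h x z p') (cmp h y w q') r'

/-- Compatibility with sources, targets, identities and compositions. -/
def IsFun {X Y : GCat} (f : ∀ k, X.C k → Y.C k) : Prop :=
  (∀ a j k (h : j < k) x, f j (X.d a h x) = Y.d a h (f k x)) ∧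
  (∀ j k (h : j < k) x, f k (X.e h x) = Y.e h (f j x)) ∧
  ∀ j k (h : j < k) x y p q, f k (X.cmp h x y p) = Y.cmp h (f k x) (f k y) q

/-- Strict functors. -/
structure Fun (X Y : GCat) where
  f : ∀ k, X.C k → Y.C k
  isFun : IsFun f

theorem isFun_id (X : GCat) : IsFun fun k (x : X.C k) => x :=
  ⟨fun _ _ _ _ _ => rfl, fun _ _ _ _ => rfl, fun _ _ _ _ _ _ _ => rfl⟩

theorem Fun.isFun_comp {X Y Z : GCat} (f : Fun X Y) (g : Fun Y Z) :
    IsFun fun k x => g.f k (f.f k x) :=
  ⟨fun a j k h x => (congrArg (g.f j) (f.2.1 a j k h x)).trans (g.2.1 a j k h _),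
    fun j k h x => (congrArg (g.f k) (f.2.2.1 j k h x)).trans (g.2.2.1 j k h _),
    fun j k h x y p q => (congrArg (g.f k) (f.2.2.2 j k h x y p
      (by rw [← f.2.1, ← f.2.1, p]))).trans (g.2.2.2 j k h _ _ _ q)⟩

/-- The identity functor. -/
def Fun.one (X : GCat) : Fun X X := ⟨_, isFun_id X⟩

/-- Composition of strict functors. -/
def Fun.mul {X Y Z : GCat} (f : Fun X Y) (g : Fun Y Z) : Fun X Z := ⟨_, f.isFun_comp g⟩

theorem Fun.one_mul {X Y : GCat} (f : Fun X Y) : (Fun.one X).mul f = f := rfl

theorem Fun.mul_one {X Y : GCat} (f : Fun X Y) : f.mul (Fun.one Y) = f := rfl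

theorem Fun.mul_assoc {W X Y Z : GCat} (f : Fun W X) (g : Fun X Y) (h : Fun Y Z) :
    (f.mul g).mul h = f.mul (g.mul h) := rfl

instance : Category GCat where
  Hom := Fun
  id := Fun.one
  comp := Fun.mul
  id_comp := Fun.one_mul
  comp_id := Fun.mul_one
  assoc := Fun.mul_assoc

/-- The cells above dimension `n` are identities. -/
def IsN (n : ℕ∞) : ObjectProperty GCat := fun X =>
  ∀ (j k : ℕ) (h : j < k), n ≤ j → Function.Surjective (X.e h)

/-- Small strict `n`-categories, `n` finite or `⊤`, as a full subcategory. -/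
abbrev NCat (n : ℕ∞) : Type 1 := (IsN n).FullSubcategory

variable {m l : ℕ}

/-- Finite sets of faces of the `m`-simplex; a face is given by its set of vertices. -/
abbrev Fs (m : ℕ) : Type := Finset (Finset (Fin (m + 1)))

/-- The odd faces (`false`) and the even faces (`true`) of the face `x`: the vertex `i` is
removed, and the number of vertices of `x` before `i` is odd or even. Vertices have no faces. -/
def fc (a : Bool) (x : Finset (Fin (m + 1))) : Fs m :=
  ({i ∈ x | Even #{j ∈ x | j < i} ↔ a = true}.image x.erase).erase ∅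

/-- Street's well-formed sets of faces: at most one vertex, and distinct elements have no common
odd face and no common even face. -/
def WF (S : Fs m) : Prop :=
  ∅ ∉ S ∧ ∀ x ∈ S, ∀ y ∈ S, x ≠ y → (#x = 1 → #y ≠ 1) ∧ ∀ a, Disjoint (fc a x) (fc a y)

/-- `S` moves `M` to `P`. -/
def Moves (S M P : Fs m) : Prop :=
  M = (P ∪ S.biUnion (fc false)) \ S.biUnion (fc true) ∧
  P = (M ∪ S.biUnion (fc true)) \ S.biUnion (fc false)

/-- Street's cells: pairs `M = S false`, `P = S true` of nonempty well-formed sets of faces such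
that both `M` and `P` move `M` to `P`. -/
def IsCell (S : Bool → Fs m) : Prop :=
  ∀ a, (S a).Nonempty ∧ WF (S a) ∧ Moves (S a) (S false) (S true)

/-- Street's `k`-source and `k`-target of a pair. -/
def bd (a : Bool) (k : ℕ) (S : Bool → Fs m) : Bool → Fs m :=
  fun b => {x ∈ S b | #x ≤ k} ∪ {x ∈ S a | #x = k + 1}

/-- Street's composition of pairs along a `k`-cell. -/
def cc (k : ℕ) (S T : Bool → Fs m) : Bool → Fs m :=
  fun b => cond b ({x ∈ S true | #x ≠ k + 1} ∪ T true) (S false ∪ {x ∈ T false | #x ≠ k + 1})

/-- The direct image of a pair: degenerate images are dropped. -/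
def push (θ : Fin (m + 1) → Fin (l + 1)) (S : Bool → Fs m) : Bool → Fs l :=
  fun b => {x ∈ S b | #(x.image θ) = #x}.image (Finset.image θ)

/-- The `k`-cells of the `m`-th oriental. -/
structure Cell (m k : ℕ) where
  S : Bool → Fs m
  isCell : IsCell S
  dim : bd false k S = S

end Vale.Agent.P213Z.G
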