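import Vale.Agent.P213Z.DefsA
import Vale.Agent.P213.Bdl.B1

/-! # One-sorted and globular strict omega-categories -/

open CategoryTheory

namespace Vale.Agent.P213Z.G

open Vale.Agent.P213 (OmegaStr OmegaCat OmegaFun isNCat)
open Vale.Agent.P213.OmegaStr

theorem Fun.ext {X Y : GCat} {f g : Fun X Y} (h : ∀ k x, f.f k x = g.f k x) : f = g := by
  obtain ⟨f, _⟩ := f
  obtain ⟨g, _⟩ := g
  congr
  exact funext fun k => funext (h k)

theorem GCat.cmp_congr (X : GCat) {j k} (h : j < k) {x y x' y' : X.C k} (e : x = x') (e' : y = y')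
    (p q) : X.cmp h x y p = X.cmp h x' y' q := by
  subst e e'
  rfl

theorem isIso_of_bij {X Y : GCat} (f : X ⟶ Y) (h : ∀ k, Function.Bijective (f.f k)) : IsIso f := by
  let e := fun k => Equiv.ofBijective _ (h k)
  have he : ∀ k y, f.f k ((e k).symm y) = y := fun k y => (e k).apply_symm_apply y
  refine ⟨⟨⟨fun k => (e k).symm, fun a j k l x => (h j).1 ?_, fun j k l x => (h k).1 ?_,
    fun j k l x y p q => (h k).1 ?_⟩, Fun.ext fun k x => (e k).symm_apply_apply x,
    Fun.ext fun k x => he k x⟩⟩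
  · rw [he, f.2.1, he]
  · rw [he, f.2.2.1, he]
  · rw [he, f.2.2.2 j k l _ _ q (by rw [he, he, p])]
    exact Y.cmp_congr l (he _ _).symm (he _ _).symm _ _

theorem comp_congr {C : Type} [OmegaStr C] {n} {x y x' y' : C} (e : x = x') (e' : y = y') (p q) :
    comp n x y p = comp n x' y' q := by
  subst e e'
  rfl

theorem dim_mono {C : Type} [OmegaStr C] {j k : ℕ} (h : j ≤ k) {x : C} (hx : d false j x = x) :
    d false k x = x := by
  rw [← hx, d_d_of_le _ _ _ _ _ h]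

/-- the globular category of a one-sorted category -/
def globO (X : OmegaCat.{0}) : GCat where
  C k := {x : X.carrier // d false k x = x}
  d a j _ _ x := ⟨d a j x.1, d_d_of_le _ _ _ _ _ le_rfl⟩
  e h x := ⟨x.1, dim_mono h.le x.2⟩
  cmp {j} _ h x y p := ⟨comp j x.1 y.1 (congrArg Subtype.val p),
    (d_comp _ _ _ _ _ _ (by rw [x.2, y.2]; exact congrArg Subtype.val p) h).trans
      (comp_congr x.2 y.2 _ _)⟩
  dd a b _ _ _ h _ x := Subtype.ext (d_d_of_lt _ _ _ _ _ h)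
  ee _ _ _ := rfl
  de a _ _ _ x := Subtype.ext ((congrArg _ x.2.symm).trans ((d_d_of_le _ _ _ _ _ le_rfl).trans x.2))
  src _ _ _ _ := Subtype.ext (src_comp _ _ _ _)
  tgt _ _ _ _ := Subtype.ext (tgt_comp _ _ _ _)
  dcmp _ _ _ _ h _ _ _ _ _ := Subtype.ext (d_comp _ _ _ _ _ _ _ h)
  ecmp _ _ _ _ _ _ := rfl
  idl _ _ _ := Subtype.ext (id_comp _ _ _)
  idr _ _ _ := Subtype.ext (comp_id _ _ _)
  asc _ _ _ _ _ _ _ _ := Subtype.ext (assoc _ _ _ _ _ _ _ _)
  inter _ _ h _ _ _ _ _ _ _ _ _ _ := Subtype.ext (interchange _ _ _ _ _ _ h _ _ _ _ _ _)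

/-- the comparison functor -/
def glob : OmegaCat.{0} ⥤ GCat where
  obj := globO
  map f := ⟨fun k x => ⟨f.toFun x.1, (f.map_d _ _ _).symm.trans (congrArg _ x.2)⟩,
    fun _ _ _ _ _ => Subtype.ext (f.map_d _ _ _), fun _ _ _ _ => rfl,
    fun _ _ _ _ _ _ _ => Subtype.ext (f.map_comp _ _ _ _ _)⟩

instance : glob.Faithful where
  map_injective {X Y} f g h := OmegaFun.ext fun x => by
    obtain ⟨k, hk⟩ := finite_dim x
    exact congrArg (fun φ : Fun (globO X) (globO Y) => (φ.f k ⟨x, hk⟩).1) h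

instance : glob.Full where
  map_surjective {X Y} φ := by
    choose k hk using fun x : X.carrier => finite_dim x
    have h1 : ∀ {j l} (_ : j < l) (x : X.carrier) p q, (φ.f l ⟨x, p⟩).1 = (φ.f j ⟨x, q⟩).1 :=
      fun h x p q => congrArg Subtype.val (φ.2.2.1 _ _ h ⟨x, q⟩)
    have h2 : ∀ l x p, (φ.f (k x) ⟨x, hk x⟩).1 = (φ.f l ⟨x, p⟩).1 := fun l x p =>
      (h1 (l := k x + l + 1) (by omega) x (dim_mono (by omega) p) _).symm.trans
        (h1 (by omega) _ _ _)
    refine ⟨⟨fun x => (φ.f (k x) ⟨x, hk x⟩).1, fun a n x => ?_, fun n x y h h' => ?_⟩,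
      Fun.ext fun l x => Subtype.ext (h2 l x.1 x.2)⟩
    · have p := dim_mono (k := k x + n + 1) (by omega) (hk x)
      rw [h2 _ x p, h2 n _ (d_d_of_le _ _ _ _ _ le_rfl)]
      exact congrArg Subtype.val (φ.2.1 a n _ (by omega) ⟨x, p⟩)
    · have p := dim_mono (k := k x + k y + n + 1) (by omega) (hk x)
      have q := dim_mono (k := k x + k y + n + 1) (by omega) (hk y)
      have l : n < k x + k y + n + 1 := by omega
      have h3 := congrArg Subtype.val (φ.2.2.2 n _ l ⟨x, p⟩ ⟨y, q⟩ (Subtype.ext h)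
        (Subtype.ext (by rw [h2 _ x p, h2 _ y q] at h'; exact h')))
      exact (h2 _ _ _).trans (h3.trans (comp_congr (h2 _ x p).symm (h2 _ y q).symm _ _))

theorem isN_glob (n : ℕ∞) (X : OmegaCat.{0}) : IsN n (glob.obj X) ↔ isNCat n X := by
  refine ⟨fun h k hk x => ?_, fun h j k l hj y => ⟨⟨y.1, h j hj _⟩, rfl⟩⟩
  obtain ⟨l, hl⟩ := finite_dim x
  obtain ⟨z, hz⟩ := h k (l + k + 1) (by omega) hk ⟨x, dim_mono (by omega) hl⟩
  rw [← show z.1 = x from congrArg Subtype.val hz]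
  exact z.2

theorem isN_of_iso {n : ℕ∞} {X Y : GCat} (e : X ≅ Y) (h : IsN n Y) : IsN n X := by
  intro j k l hj x
  obtain ⟨z, hz⟩ := h j k l hj (e.hom.f k x)
  refine ⟨e.inv.f j z, (e.inv.2.2.1 _ _ _ _).symm.trans ?_⟩
  rw [hz]
  exact congrArg (fun φ : Fun X X => φ.f k x) e.hom_inv_id

variable (X : GCat)

theorem GCat.d_e (a) {i j k} (h : i < j) (h' : j < k) (x : X.C j) :
    X.d a (h.trans h') (X.e h' x) = X.d a h x := by
  rw [← X.dd a false h h', X.de]

/-- the sequences of sources -/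
structure Sq where
  f : ∀ r, X.C r
  src : ∀ r s (h : r < s), X.d false h (f s) = f r
  fin : ∃ k, ∀ r s (h : r < s), k ≤ r → X.e h (f r) = f s

variable {X}

theorem Sq.ext (K : ℕ) {x y : Sq X} (h : ∀ r, K < r → x.f r = y.f r) : x = y := by
  have : x.f = y.f := funext fun r => by
    rw [← x.src r (K + r + 1) (by omega), ← y.src r (K + r + 1) (by omega), h _ (by omega)]
  obtain ⟨f, _⟩ := x
  obtain ⟨g, _⟩ := y
  congr

/-- the cells determined by a cell -/
def tr (j : ℕ) (c : X.C j) (r : ℕ) : X.C r :=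
  if h : r < j then X.d false h c else if h' : j < r then X.e h' c else
    (show j = r by omega) ▸ c

theorem tr_lt {j r} (c : X.C j) (h : r < j) : tr j c r = X.d false h c := dif_pos h

theorem tr_gt {j r} (c : X.C j) (h : j < r) : tr j c r = X.e h c := by
  rw [tr, dif_neg h.not_gt, dif_pos h]

theorem tr_self {j} (c : X.C j) : tr j c j = c := by
  rw [tr, dif_neg (lt_irrefl j), dif_neg (lt_irrefl j)]

/-- the sequence of a cell -/
def sq (j : ℕ) (c : X.C j) : Sq X where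
  f := tr j c
  src r s h := by
    rcases lt_trichotomy s j with h1 | rfl | h1
    · rw [tr_lt c h1, tr_lt c (h.trans h1), X.dd]
    · rw [tr_self, tr_lt c h]
    · rw [tr_gt c h1]
      rcases lt_trichotomy r j with h2 | rfl | h2
      · rw [tr_lt c h2, X.d_e]
      · rw [tr_self, X.de]
      · rw [tr_gt c h2, ← X.ee h2 h, X.de]
  fin := ⟨j + 1, fun r s h h1 => by rw [tr_gt c h1, tr_gt c (Nat.lt_trans h1 h), X.ee]⟩

theorem Sq.d_eq (x : Sq X) (a) {j r} (h : j < r) :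
    X.d a h (x.f r) = X.d a j.lt_succ_self (x.f (j + 1)) := by
  rcases (Nat.succ_le_of_lt h).eq_or_lt with rfl | h1
  · rfl
  · rw [← x.src _ _ h1, X.dd]

/-- sources and targets -/
def Sq.d (a : Bool) (j : ℕ) (x : Sq X) : Sq X := sq j (X.d a j.lt_succ_self (x.f (j + 1)))

theorem Sq.d_f (a) {j r} (h : j < r) (x : Sq X) : (x.d a j).f r = X.e h (X.d a h (x.f r)) := by
  rw [x.d_eq a h]
  exact tr_gt _ h

theorem Sq.cp {j r} (h : j < r) {x y : Sq X} (p : x.d true j = y.d false j) :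
    X.d true h (x.f r) = X.d false h (y.f r) := by
  rw [← X.de false h (X.d true h _), ← x.d_f, p, y.d_f, X.de]

/-- composition -/
def Sq.cmp (j : ℕ) (x y : Sq X) (p : x.d true j = y.d false j) : Sq X where
  f r := if h : j < r then X.cmp h (x.f r) (y.f r) (Sq.cp h p) else x.f r
  src r s h := by
    by_cases h1 : j < s
    · rw [dif_pos h1]
      rcases lt_trichotomy r j with h2 | rfl | h2
      · rw [dif_neg h2.not_gt, ← X.dd false false h2 h1, X.src, X.dd, x.src]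
      · rw [dif_neg (lt_irrefl _), X.src, x.src]
      · rw [dif_pos h2, X.dcmp false h2 h _ _ _ (by rw [x.src, y.src]; exact Sq.cp h2 p)]
        exact X.cmp_congr _ (x.src _ _ _) (y.src _ _ _) _ _
    · rw [dif_neg h1, dif_neg (by omega), x.src]
  fin := by
    obtain ⟨k, hk⟩ := x.fin
    obtain ⟨l, hl⟩ := y.fin
    refine ⟨k + l + j + 1, fun r s h h1 => ?_⟩
    have h2 : j < r := by omega
    have e1 := hk r s h (by omega)
    have e2 := hl r s h (by omega)
    rw [dif_pos h2, dif_pos (h2.trans h), X.ecmp h2 h _ _ _ (by rw [e1, e2]; exact Sq.cp _ p)]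
    exact X.cmp_congr _ e1 e2 _ _

theorem Sq.cmp_f {j r} (h : j < r) (x y : Sq X) (p) :
    (x.cmp j y p).f r = X.cmp h (x.f r) (y.f r) (Sq.cp h p) := dif_pos h

instance : OmegaStr (Sq X) where
  d := Sq.d
  comp := Sq.cmp
  finite_dim x := x.fin.imp fun k hk => Sq.ext k fun r h => by
    rw [Sq.d_f _ h, x.src, hk _ _ _ le_rfl]
  d_d_of_lt a b m n x l := Sq.ext n fun r h => by
    rw [Sq.d_f _ (l.trans h), Sq.d_f _ (l.trans h), Sq.d_f _ h, X.d_e a l h, X.dd]
  d_d_of_le a b m n x l := Sq.ext m fun r h => by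
    rw [Sq.d_f _ h, Sq.d_f _ (l.trans_lt h)]
    rcases l.eq_or_lt with rfl | l
    · rw [X.de]
    · rw [← X.ee l h, X.de]
  src_comp n x y p := Sq.ext n fun r h => by rw [Sq.d_f _ h, Sq.d_f _ h, Sq.cmp_f h, X.src]
  tgt_comp n x y p := Sq.ext n fun r h => by rw [Sq.d_f _ h, Sq.d_f _ h, Sq.cmp_f h, X.tgt]
  d_comp a m n x y p q l := Sq.ext m fun r h => by
    have h1 : X.d true l (X.d a h (x.f r)) = X.d false l (X.d a h (y.f r)) := by
      rw [X.dd, X.dd]
      exact Sq.cp _ p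
    rw [Sq.d_f _ h, Sq.cmp_f (l.trans h), Sq.cmp_f (l.trans h), X.dcmp a l h _ _ _ h1,
      X.ecmp l h _ _ _ (by rw [X.d_e _ l h, X.d_e _ l h, h1])]
    exact X.cmp_congr _ (Sq.d_f _ _ _).symm (Sq.d_f _ _ _).symm _ _
  id_comp n x p := Sq.ext n fun r h => by
    rw [Sq.cmp_f h]
    exact (X.cmp_congr h (Sq.d_f _ h _) rfl _ (X.de _ _ _)).trans (X.idl _ _ _)
  comp_id n x p := Sq.ext n fun r h => by
    rw [Sq.cmp_f h]
    exact (X.cmp_congr h rfl (Sq.d_f _ h _) _ (X.de _ _ _).symm).trans (X.idr _ _ _)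
  assoc n x y z p q p' q' := Sq.ext n fun r h => by
    simp only [Sq.cmp_f h]
    exact X.asc _ _ _ _ _ _ _ _
  interchange m n x y z w l _ _ _ _ _ _ := Sq.ext n fun r h => by
    simp only [Sq.cmp_f h, Sq.cmp_f (l.trans h)]
    exact X.inter _ _ l _ _ _ _ _ _ _ _ _ _

/-- evaluation -/
def ev (X : GCat) : glob.obj (OmegaCat.mk (Sq X)) ⟶ X :=
  ⟨fun k x => x.1.f k, fun a _ _ h x => (tr_self _).trans (x.1.d_eq a h).symm,
    fun _ k h x => (congrArg (fun z : Sq X => z.f k) x.2).symm.trans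
      ((Sq.d_f _ h _).trans (congrArg _ (x.1.src _ _ _))), 
    fun _ _ h x y p _ => Sq.cmp_f h x.1 y.1 (congrArg Subtype.val p)⟩

theorem isIso_ev (X : GCat) : IsIso (ev X) := isIso_of_bij _ fun k => by
  constructor
  · intro x y h
    have h1 : ∀ z : (glob.obj (OmegaCat.mk (Sq X))).C k, z.1 = sq k (z.1.f k) := fun z =>
      z.2.symm.trans (congrArg (sq k) (z.1.src _ _ _))
    exact Subtype.ext ((h1 x).trans ((congrArg (sq k) h).trans (h1 y).symm))
  · exact fun c => ⟨⟨sq k c, congrArg (sq k) (((sq k c).src _ _ _).trans (tr_self c))⟩, tr_self c⟩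

/-- the comparison functor for `n`-categories -/
def globN (n : ℕ∞) : P213.NCat.{0} n ⥤ NCat n :=
  ObjectProperty.lift _ ((isNCat n).ι ⋙ glob) fun X => (isN_glob n _).2 X.2

instance (n : ℕ∞) : (globN n).Faithful := by
  unfold globN
  infer_instance

instance (n : ℕ∞) : (globN n).Full := by
  unfold globN
  infer_instance

instance (n : ℕ∞) : (globN n).EssSurj where
  mem_essImage Y := ⟨⟨OmegaCat.mk (Sq Y.obj), (isN_glob n _).1
    (isN_of_iso (@asIso _ _ _ _ _ (isIso_ev Y.obj)) Y.2)⟩,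
    ⟨ObjectProperty.isoMk _ (@asIso _ _ _ _ _ (isIso_ev Y.obj))⟩⟩

instance (n : ℕ∞) : (globN n).IsEquivalence where

end Vale.Agent.P213Z.G
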