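import Vale.Agent.P213Z.Ori
import Vale.Agent.P213Z.Glob
import Mathlib.AlgebraicTopology.SimplicialSet.Subdivision
import Mathlib.AlgebraicTopology.SimplicialSet.CategoryWithFibrations
import Mathlib.AlgebraicTopology.ModelCategory.Basic
import Mathlib.CategoryTheory.Presentable.LocallyPresentable

/-!
Statement-level definitions for P213, part 2: the orientals, the Street nerve and the Thomason
classes.
-/

open CategoryTheory HomotopicalAlgebra SSet.modelCategoryQuillen

namespace Vale.Agent.P213Z.G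

section

variable {m l i j k : ℕ}

theorem Cell.p₁ (a : Bool) (j : ℕ) (x : Cell m k) : IsCell (bd a j x.S) := isCell_bd a j x.isCell

theorem Cell.p₂ (a : Bool) (j : ℕ) (x : Cell m k) : bd false j (bd a j x.S) = bd a j x.S :=
  bd_bd_le _ _ le_rfl

/-- Sources and targets in the oriental. -/
def Cell.st (a : Bool) {j k : ℕ} (_ : j < k) (x : Cell m k) : Cell m j :=
  ⟨bd a j x.S, x.p₁ a j, x.p₂ a j⟩

theorem Cell.p₃ (h : j < k) (x : Cell m j) : bd false k x.S = x.S := bd_of_dim _ h.le x.dim

/-- Identities in the oriental. -/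
def Cell.up {j k : ℕ} (h : j < k) (x : Cell m j) : Cell m k := ⟨x.S, x.isCell, x.p₃ h⟩

theorem Cell.p₄ (h : j < k) (x y : Cell m k) (p : x.st true h = y.st false h) :
    IsCell (cc j x.S y.S) := isCell_cc j x.isCell y.isCell (congrArg Cell.S p)

theorem Cell.p₅ (h : j < k) (x y : Cell m k) : bd false k (cc j x.S y.S) = cc j x.S y.S := by
  rw [bd_cc _ h, x.dim, y.dim]

/-- Compositions in the oriental. -/
def Cell.mu {j k : ℕ} (h : j < k) (x y : Cell m k) (p : x.st true h = y.st false h) : Cell m k :=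
  ⟨cc j x.S y.S, x.p₄ h y p, x.p₅ h y⟩

theorem Cell.q1 (a b) {i j k} (h : i < j) (h' : j < k) (x : Cell m k) :
    (x.st b h').st a h = x.st a (h.trans h') := Cell.ext (bd_bd_lt a b h)

theorem Cell.q2 {i j k} (h : i < j) (h' : j < k) (x : Cell m i) :
    (x.up h).up h' = x.up (h.trans h') := rfl

theorem Cell.q3 (a) {j k} (h : j < k) (x : Cell m j) : (x.up h).st a h = x :=
  Cell.ext (bd_of_dim a le_rfl x.dim)

theorem Cell.q4 {j k} (h : j < k) (x y : Cell m k) (p) : (x.mu h y p).st false h = x.st false h :=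
  Cell.ext (bd_cc_src (congrArg Cell.S p))

theorem Cell.q5 {j k} (h : j < k) (x y : Cell m k) (p) : (x.mu h y p).st true h = y.st true h :=
  Cell.ext (bd_cc_tgt (congrArg Cell.S p))

theorem Cell.q6 (a) {i j k} (h : i < j) (h' : j < k) (x y : Cell m k) (p q) :
    (x.mu (h.trans h') y p).st a h' = (x.st a h').mu h (y.st a h') q := Cell.ext (bd_cc a h)

theorem Cell.q7 {i j k} (h : i < j) (h' : j < k) (x y : Cell m j) (p q) :
    (x.mu h y p).up h' = (x.up h').mu (h.trans h') (y.up h') q := rfl

theorem Cell.q8 {j k} (h : j < k) (x : Cell m k) (p) : ((x.st false h).up h).mu h x p = x :=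
  Cell.ext (cc_idl j)

theorem Cell.q9 {j k} (h : j < k) (x : Cell m k) (p) : x.mu h ((x.st true h).up h) p = x :=
  Cell.ext (cc_idr j)

theorem Cell.q10 {j k} (h : j < k) (x y z : Cell m k) (p q p' q') :
    (x.mu h y p).mu h z p' = x.mu h (y.mu h z q) q' := Cell.ext (cc_asc j)

theorem Cell.q11 {i j k} (h : i < k) (h' : j < k) (l : i < j) (x y z w : Cell m k)
    (p q p' q' r r') : (x.mu h' y p).mu h (z.mu h' w q) r =
      (x.mu h z p').mu h' (y.mu h w q') r' := Cell.ext (cc_inter l)

/-- Street's `m`-th oriental. -/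
def Orn (m : ℕ) : GCat :=
  ⟨Cell m, Cell.st, Cell.up, Cell.mu, Cell.q1, Cell.q2, Cell.q3, Cell.q4, Cell.q5, Cell.q6,
    Cell.q7, Cell.q8, Cell.q9, Cell.q10, Cell.q11⟩

variable (θ : Fin (m + 1) →o Fin (l + 1))

theorem Cell.p₆ (x : Cell m k) : IsCell (push θ x.S) := isCell_push θ x.isCell

theorem Cell.p₇ (x : Cell m k) : bd false k (push θ x.S) = push θ x.S := by
  rw [← push_bd θ x.isCell, x.dim]

/-- The direct image of a cell. -/
def Cell.im (k : ℕ) (x : Cell m k) : Cell l k := ⟨push θ x.S, x.p₆ θ, x.p₇ θ⟩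

theorem Cell.p₈ : @IsFun (Orn m) (Orn l) (Cell.im θ) :=
  ⟨fun a j _ _ x => Cell.ext (push_bd θ x.isCell a j), fun _ _ _ _ => rfl,
    fun _ _ _ x y p _ => Cell.ext (push_cc θ x.isCell y.isCell (congrArg Cell.S p))⟩

end

/-- The functor between orientals induced by a monotone map. -/
def omap {a b : SimplexCategory} (θ : a ⟶ b) : Orn a.len ⟶ Orn b.len :=
  ⟨Cell.im θ.toOrderHom, Cell.p₈ _⟩

theorem omap_id (a : SimplexCategory) : omap (𝟙 a) = 𝟙 (Orn a.len) :=
  Fun.ext fun _ x => Cell.ext (push_id x.isCell)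

theorem omap_comp {a b c : SimplexCategory} (θ : a ⟶ b) (θ' : b ⟶ c) :
    omap (θ ≫ θ') = omap θ ≫ omap θ' :=
  Fun.ext fun _ x => Cell.ext (push_push θ.toOrderHom θ'.toOrderHom x.isCell)

/-- The cosimplicial omega-category of the orientals. -/
def oriental : SimplexCategory ⥤ GCat where
  obj a := Orn a.len
  map := omap
  map_id := omap_id
  map_comp := omap_comp

/-- The Street nerve: the `m`-simplices of the nerve of `X` are the strict functors from the
`m`-th oriental to `X`. -/
def nerve (n : ℕ∞) : NCat n ⥤ SSet.{0} :=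
  (IsN n).ι ⋙ yoneda ⋙ (Functor.whiskeringLeft _ _ _).obj oriental.op

variable {D : Type 1} [Category.{0} D]

/-- The three classes form a model structure. -/
def IsModel (cof w fib : MorphismProperty D) : Prop :=
  ∃ M : ModelCategory D,
    @cofibrations D _ M.categoryWithCofibrations = cof ∧
    @weakEquivalences D _ M.categoryWithWeakEquivalences = w ∧
    @fibrations D _ M.categoryWithFibrations = fib

/-- Left and right properness. -/
def IsProper (cof w fib : MorphismProperty D) : Prop := ∀ A B A' B' t l r b,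
  (IsPushout (t : A ⟶ B) (l : A ⟶ A') (r : B ⟶ B') b → cof t → w l → w r) ∧
  (IsPullback t l r b → fib b → w r → w l)

/-- Quillen equivalences between simplicial sets and `D`: the left adjoint preserves cofibrations
and trivial cofibrations, and a map `L K ⟶ Y` is a weak equivalence iff its adjunct is one. -/
def IsQuillenEquivalence {L : SSet.{0} ⥤ D} {R : D ⥤ SSet.{0}} (adj : L ⊣ R)
    (cof w : MorphismProperty D) : Prop :=
  (∀ K K' (i : K ⟶ K'), Mono i → cof (L.map i) ∧ (weq i → w (L.map i))) ∧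
  ∀ K Y (f : L.obj K ⟶ Y), w f ↔ weq (adj.unit.app K ≫ R.map f)

variable (N : D ⥤ SSet.{0})

/-- Thomason weak equivalences. -/
def thW : MorphismProperty D := weq.inverseImage N

/-- Thomason fibrations. -/
def thF : MorphismProperty D := J.rlp.inverseImage (N ⋙ SSet.ex ⋙ SSet.ex)

/-- Thomason cofibrations. -/
def thC : MorphismProperty D := (thF N ⊓ thW N).llp

/-- The Kan-Quillen classes and the Thomason classes form model structures, the latter is proper
and combinatorial, `N` has a left adjoint, and for every left adjoint `c` the adjunction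
`c Sd² ⊣ Ex² N` is a Quillen equivalence. -/
def IsThomason : Prop :=
  IsModel (.monomorphisms SSet.{0}) weq J.rlp ∧ IsModel (thC N) (thW N) (thF N) ∧
  IsProper (thC N) (thW N) (thF N) ∧ IsLocallyPresentable.{0} D ∧
  N.IsRightAdjoint ∧ ∀ c (h : c ⊣ N), IsQuillenEquivalence
    ((SSet.sdExAdjunction.comp SSet.sdExAdjunction).comp h) (thC N) (thW N) ∧
    (I.map ((SSet.sd ⋙ SSet.sd) ⋙ c)).rlp = thF N ⊓ thW N ∧
    (J.map ((SSet.sd ⋙ SSet.sd) ⋙ c)).rlp = thF N

end Vale.Agent.P213Z.G
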