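import Vale.Agent.P213Z.Top
import Vale.Agent.P213Z.Aff
import Vale.Agent.P213.Bdl.B14

/-! # Weak equivalences of simplicial sets realize to homotopy equivalences -/

namespace Vale.Agent.P213Z

open CategoryTheory Simplicial Opposite Topology Limits
open SSet.modelCategoryQuillen
open Vale.Agent.P246.T (Dl)
open Vale.Agent.P178.H924
open Vale.Agent.P213

section horn

variable {n : ℕ} (k : Fin (n + 2))

/-- the least coordinate away from `k` -/
noncomputable def mh (t : Dl (n + 2)) : ℝ :=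
  Finset.univ.inf' Finset.univ_nonempty fun i : Fin (n + 1) => t (k.succAbove i)

theorem continuous_mh : Continuous (mh k) :=
  Continuous.finset_inf'_apply _ fun _ _ => (continuous_apply _).comp continuous_subtype_val

theorem mh_le (t : Dl (n + 2)) (i) : mh k t ≤ t (k.succAbove i) :=
  Finset.inf'_le _ (Finset.mem_univ i)

theorem exists_mh (t : Dl (n + 2)) : ∃ i, mh k t = t (k.succAbove i) := by
  obtain ⟨i, -, hi⟩ := Finset.exists_mem_eq_inf' Finset.univ_nonempty
    fun i : Fin (n + 1) => t (k.succAbove i)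
  exact ⟨i, hi⟩

theorem mh_nn (t : Dl (n + 2)) : 0 ≤ mh k t := by
  obtain ⟨i, hi⟩ := exists_mh k t
  exact hi ▸ dl_nn t _

theorem mh_le_one (t : Dl (n + 2)) : mh k t ≤ 1 := (mh_le k t 0).trans (stdSimplex.le_one _ _)

/-- the clamped parameter -/
noncomputable def cl (q : Dl (n + 2) × ℝ) : ℝ := max 0 (min q.2 (mh k q.1))

theorem cl_le (q : Dl (n + 2) × ℝ) : cl k q ≤ mh k q.1 := max_le (mh_nn k _) (min_le_right _ _)

theorem continuous_cl : Continuous (cl k) :=
  continuous_const.max (continuous_snd.min ((continuous_mh k).comp continuous_fst))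

/-- the segment toward the horn -/
noncomputable def ln : C(Dl (n + 2) × ℝ, Dl (n + 2)) where
  toFun q := ⟨fun i => if i = k then q.1 i + (n + 1) * cl k q else q.1 i - cl k q, fun i => by
      dsimp only
      split_ifs with h
      · have := dl_nn q.1 i
        have : 0 ≤ cl k q := le_max_left _ _
        positivity
      · obtain ⟨j, rfl⟩ := Fin.exists_succAbove_eq h
        exact sub_nonneg.2 ((cl_le k q).trans (mh_le k _ j)), by
      have h := dl_sum q.1
      rw [Fin.sum_univ_succAbove _ k] at h ⊢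
      simp only [if_true, Fin.succAbove_ne, if_false, Finset.sum_sub_distrib, Finset.sum_const,
        Finset.card_univ, Fintype.card_fin, nsmul_eq_mul]
      push_cast
      linarith⟩
  continuous_toFun := by
    refine Continuous.subtype_mk (continuous_pi fun i => ?_) _
    have h1 : Continuous fun q : Dl (n + 2) × ℝ => q.1 i :=
      ((continuous_apply i).comp continuous_subtype_val).comp continuous_fst
    split_ifs
    · exact h1.add (continuous_const.mul (continuous_cl k))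
    · exact h1.sub (continuous_cl k)

theorem ln_of_cl {q : Dl (n + 2) × ℝ} (h : cl k q = 0) : ln k q = q.1 := by
  refine Subtype.ext (funext fun i => ?_)
  change (if i = k then q.1 i + (n + 1) * cl k q else q.1 i - cl k q) = q.1 i
  rw [h]
  simp

theorem ln_zero (t : Dl (n + 2)) : ln k (t, 0) = t :=
  ln_of_cl k (max_eq_left (min_le_left _ _))

theorem ln_horn {t : Dl (n + 2)} (h : mh k t = 0) (s : ℝ) : ln k (t, s) = t :=
  ln_of_cl k (max_eq_left ((min_le_right _ _).trans h.le))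

/-- the retraction onto the horn -/
noncomputable def rt : C(Dl (n + 2), Dl (n + 2)) :=
  (ln k).comp ((ContinuousMap.id _).prodMk ⟨mh k, continuous_mh k⟩)

theorem rt_apply (t) : rt k t = ln k (t, mh k t) := rfl

theorem exists_rt (t) : ∃ (i : Fin (n + 1)) (u : Dl (n + 1)),
    am (SimplexCategory.δ (k.succAbove i)) u = rt k t := by
  obtain ⟨i, hi⟩ := exists_mh k t
  refine ⟨i, Vale.Agent.P246.T.CV.exists_face (k.succAbove i) ?_⟩
  change (if k.succAbove i = k then _ else t (k.succAbove i) - cl k (t, mh k t)) = 0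
  rw [if_neg (Fin.succAbove_ne k i), cl, min_self, max_eq_right (mh_nn k t), hi, sub_self]

variable {E B : TopCat.{0}}

/-- the lifting property in coordinates -/
def TL (p : E ⟶ B) : Prop := ∀ (n : ℕ) (k : Fin (n + 2)) (a : C(Dl (n + 2), E))
  (b : C(Dl (n + 2), B)), (∀ t, p.hom (a t) = b (rt k t)) →
  ∃ c : C(Dl (n + 2), E), (∀ t, mh k t = 0 → c t = a t) ∧ ∀ t, p.hom (c t) = b t

/-- the operator of a simplex of the standard simplex -/
def opr {n : ℕ} {m : SimplexCategoryᵒᵖ} (y : (Δ[n] : SSet.{0}).obj m) : ⦋m.unop.len⦌ ⟶ ⦋n⦌ :=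
  SSet.stdSimplex.objEquiv y

/-- the top simplex -/
def topS (n : ℕ) : (Δ[n] : SSet.{0}) _⦋n⦌ := SSet.stdSimplex.objEquiv.symm (𝟙 _)

theorem map_topS {n : ℕ} {m : ℕ} (y : (Δ[n] : SSet.{0}) _⦋m⦌) :
    (Δ[n] : SSet.{0}).map (opr y).op (topS n) = y :=
  SSet.stdSimplex.objEquiv.injective (Category.comp_id (SSet.stdSimplex.objEquiv y))

theorem sx_std {n : ℕ} (g : Δ[n] ⟶ Sg B) {m : ℕ} (y : (Δ[n] : SSet.{0}) _⦋m⦌) (u) :
    sx (g.app _ y) u = sx (g.app _ (topS n)) (am (opr y) u) := by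
  conv_lhs => rw [← map_topS y, NatTrans.naturality_apply g]
  rfl

/-- the horn -/
abbrev Hn : SSet.{0} := (Λ[n + 1, k] : SSet.Subcomplex.{0} _).toSSet

/-- a face of the horn -/
def dH (i : Fin (n + 1)) : Hn k _⦋n⦌ :=
  ⟨SSet.stdSimplex.objEquiv.symm (SimplexCategory.δ (k.succAbove i)),
    (SSet.mem_horn_iff_notMem_range _ _).2 ⟨_, Fin.succAbove_ne k i, by
      rintro ⟨j, hj⟩
      exact Fin.succAbove_ne _ j hj⟩⟩

theorem rm_horn {m : ℕ} (y : Hn k _⦋m⦌) (u) :
    rm Λ[n + 1, k].ι (chr _ y u) = chr _ (topS (n + 1)) (am (opr y.1) u) := by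
  rw [rm_chr, ← chr_am, map_topS]
  rfl

theorem mh_horn {m : ℕ} (y : Hn k _⦋m⦌) (u) : mh k (am (opr y.1) u) = 0 := by
  obtain ⟨j, hj, h⟩ := (SSet.mem_horn_iff_notMem_range _ _).1 y.2
  obtain ⟨i, rfl⟩ := Fin.exists_succAbove_eq hj
  refine le_antisymm ((mh_le k _ i).trans (le_of_eq ?_)) (mh_nn k _)
  by_contra h4
  obtain ⟨l, hl, -⟩ := (am_ne_zero _ _ _).1 h4
  exact h ⟨l, hl⟩

theorem exists_rho : ∃ ρ : C(Dl (n + 2), Re (Hn k)),
    (∀ t, ∃ i u, ρ t = chr _ (dH k i) u ∧ am (opr (dH k i).1) u = rt k t) ∧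
    ∀ (m : ℕ) (y : Hn k _⦋m⦌) (u), ρ (am (opr y.1) u) = chr _ y u := by
  obtain ⟨ρ, hρ⟩ := lift_emb (isEmbedding_rm Λ[n + 1, k].ι)
    ((chr _ (topS (n + 1))).comp (rt k)) fun t => by
    obtain ⟨i, u, hu⟩ := exists_rt k t
    exact ⟨chr _ (dH k i) u, (rm_horn k _ _).trans (congrArg (chr _ (topS (n + 1))) hu)⟩
  refine ⟨ρ, fun t => ?_, fun m y u => ?_⟩
  · obtain ⟨i, u, hu⟩ := exists_rt k t
    refine ⟨i, u, rm_injective Λ[n + 1, k].ι ?_, hu⟩
    rw [hρ, rm_horn, ContinuousMap.comp_apply, ← hu]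
    rfl
  · apply rm_injective Λ[n + 1, k].ι
    rw [hρ, rm_horn, ContinuousMap.comp_apply, rt_apply, ln_horn k (mh_horn k y u)]

theorem exists_adj {X : SSet.{0}} (f : X ⟶ Sg E) : ∃ a : C(Re X, E),
    ∀ (m : ℕ) (y : X _⦋m⦌) (u), a (chr _ y u) = sx (f.app _ y) u :=
  ⟨((sSetTopAdj.homEquiv _ _).symm f).hom, fun _ y u =>
    congrArg (fun z => sx (z.app _ y) u) ((Adjunction.homEquiv_unit _ _ _ _).symm.trans
      ((sSetTopAdj.homEquiv _ _).apply_symm_apply f))⟩

/-- the map of a singular simplex -/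
noncomputable def ofStd {n : ℕ} (c : C(Dl (n + 1), E)) : Δ[n] ⟶ Sg E :=
  toSg (fun _ y => c.comp (am (opr y))) fun _ _ φ y u =>
    congrArg c (am_comp φ.unop (opr y) u)

theorem TL.fib {p : E ⟶ B} (hp : TL p) : J.rlp (TopCat.toSSet.map p) := by
  intro X Y i hi
  simp only [J, MorphismProperty.iSup_iff] at hi
  obtain ⟨n, ⟨k⟩⟩ := hi
  refine ⟨fun {f g} sq => ?_⟩
  obtain ⟨ρ, h1, h2⟩ := exists_rho k
  obtain ⟨a, ha⟩ := exists_adj f
  obtain ⟨c, hc1, hc2⟩ := hp n k (a.comp ρ) (sx (g.app _ (topS (n + 1)))) fun t => by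
    obtain ⟨i, u, h3, hu⟩ := h1 t
    rw [ContinuousMap.comp_apply, h3, ha, ← hu]
    have h4 := congrArg (fun z => sx (z.app _ (dH k i)) u) sq.w
    exact h4.trans (sx_std g _ _)
  refine ⟨⟨⟨ofStd c, ?_, ?_⟩⟩⟩
  · ext ⟨⟨m⟩⟩ y
    refine sx_inj fun u => ?_
    refine (hc1 _ (mh_horn k y u)).trans ?_
    exact (congrArg a (h2 m y u)).trans (ha m y u)
  · ext ⟨⟨m⟩⟩ y
    exact sx_inj fun u => (hc2 _).trans (sx_std g y u).symm

end horn

/-- the map to the point -/
def ptMap (T : TopCat.{0}) : T ⟶ TopCat.of PUnit := TopCat.ofHom (.const _ .unit)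

theorem tl_pt (T : TopCat.{0}) : TL (ptMap T) := fun _ _ a _ _ => ⟨a, fun _ _ => rfl, fun _ => rfl⟩

/-- the end points of a path -/
def ends (T : TopCat.{0}) : TopCat.of C(unitInterval, T) ⟶ TopCat.of (T × T) :=
  TopCat.ofHom ⟨fun γ => (γ 0, γ 1), by fun_prop⟩

theorem tl_ends (T : TopCat.{0}) : TL (ends T) := by
  intro n k a b hab
  have h0 : ∀ t, a t 0 = (b (rt k t)).1 := fun t => congrArg Prod.fst (hab t)
  have h1 : ∀ t, a t 1 = (b (rt k t)).2 := fun t => congrArg Prod.snd (hab t)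
  let s : Dl (n + 2) × unitInterval → unitInterval := fun q =>
    Set.projIcc 0 1 zero_le_one ((q.2 - mh k q.1 / 3) / (1 - 2 * mh k q.1 / 3))
  have hd : ∀ t, 0 < 1 - 2 * mh k t / 3 := fun t => by linarith [mh_le_one k t]
  have cm : Continuous fun q : Dl (n + 2) × unitInterval => mh k q.1 :=
    (continuous_mh k).comp continuous_fst
  have ct : Continuous fun q : Dl (n + 2) × unitInterval => (q.2 : ℝ) :=
    continuous_subtype_val.comp continuous_snd
  have cs : Continuous s := continuous_projIcc.comp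
    ((ct.sub (cm.div_const 3)).div (continuous_const.sub ((continuous_const.mul cm).div_const 3))
      fun q => (hd q.1).ne')
  let G : Dl (n + 2) × unitInterval → T := fun q =>
    if 3 * (1 - (q.2 : ℝ)) ≤ mh k q.1 then (b (ln k (q.1, 3 * (1 - q.2)))).2 else a q.1 (s q)
  have cG : Continuous G := by
    refine Continuous.if_le ?_ ?_ (continuous_const.mul (continuous_const.sub ct)) cm fun q hq => ?_
    · exact (b.continuous.comp ((ln k).continuous.comp (continuous_fst.prodMk
        (continuous_const.mul (continuous_const.sub ct))))).snd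
    · exact (a.continuous.comp continuous_fst).eval cs
    · have : s q = 1 := Set.projIcc_of_right_le _ (by rw [le_div_iff₀ (hd _)]; linarith)
      rw [this, h1, hq, rt_apply]
  let F : Dl (n + 2) × unitInterval → T := fun q =>
    if 3 * (q.2 : ℝ) ≤ mh k q.1 then (b (ln k (q.1, 3 * q.2))).1 else G q
  have cF : Continuous F := by
    refine Continuous.if_le ?_ cG (continuous_const.mul ct) cm fun q hq => ?_
    · exact (b.continuous.comp ((ln k).continuous.comp (continuous_fst.prodMk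
        (continuous_const.mul ct)))).fst
    · have : s q = 0 := Set.projIcc_of_le_left _ (by rw [div_le_iff₀ (hd _)]; linarith)
      have h2 : ¬ 3 * (1 - (q.2 : ℝ)) ≤ mh k q.1 := by linarith [mh_le_one k q.1]
      change _ = if _ then _ else _
      rw [if_neg h2, this, h0, hq, rt_apply]
  refine ⟨ContinuousMap.curry ⟨F, cF⟩, fun t ht => ContinuousMap.ext fun τ => ?_,
    fun t => Prod.ext ?_ ?_⟩
  · change (if _ then _ else if _ then _ else _) = _
    dsimp only
    split_ifs with h2 h3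
    · obtain rfl : τ = 0 := Subtype.ext (le_antisymm (by change (τ : ℝ) ≤ 0; linarith) τ.2.1)
      rw [h0, rt_apply, ln_horn k ht, ln_horn k ht]
    · obtain rfl : τ = 1 := Subtype.ext (le_antisymm τ.2.2 (by change 1 ≤ (τ : ℝ); linarith))
      rw [h1, rt_apply, ln_horn k ht, ln_horn k ht]
    · congr 1
      change Set.projIcc _ _ _ ((τ - mh k t / 3) / (1 - 2 * mh k t / 3)) = τ
      rw [ht]
      simp
  · change (if 3 * (0 : ℝ) ≤ mh k t then (b (ln k (t, 3 * 0))).1 else _) = _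
    rw [mul_zero, if_pos (mh_nn k t), ln_zero]
  · change (if 3 * (1 : ℝ) ≤ mh k t then _ else
      if 3 * (1 - (1 : ℝ)) ≤ mh k t then (b (ln k (t, 3 * (1 - 1)))).2 else _) = _
    rw [if_neg (by linarith [mh_le_one k t]), sub_self, mul_zero, if_pos (mh_nn k t), ln_zero]

variable {A X Y : SSet.{0}}

theorem isHE_of_anodyne {j : A ⟶ X} (hj : J.rlp.llp j) : IsHE (rm j) := by
  have l1 := (sSetTopAdj.hasLiftingProperty_iff j _).2 (hj _ (tl_pt (SSet.toTop.obj A)).fib)
  have l2 := (sSetTopAdj.hasLiftingProperty_iff j _).2 (hj _ (tl_ends (SSet.toTop.obj X)).fib)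
  have sq1 : CommSq (𝟙 _) (SSet.toTop.map j) (ptMap (SSet.toTop.obj A)) (ptMap _) := ⟨rfl⟩
  have hr : ∀ a, sq1.lift.hom (rm j a) = a := fun a => congrArg (fun z => z.hom a) sq1.fac_left
  have sq2 : CommSq (TopCat.ofHom ((ContinuousMap.const' (X := unitInterval)).comp (rm j)))
      (SSet.toTop.map j) (ends (SSet.toTop.obj X))
      (TopCat.ofHom (((rm j).comp sq1.lift.hom).prodMk (.id _))) := ⟨by
    ext a
    · exact congrArg (rm j) (hr a).symm
    · rfl⟩
  have h2 := fun x => congrArg (fun z => z.hom x) sq2.fac_right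
  refine ⟨sq1.lift.hom, ?_, ⟨⟨(ContinuousMap.uncurry sq2.lift.hom).comp
    ⟨Prod.swap, continuous_swap⟩, fun x => congrArg Prod.fst (h2 x),
      fun x => congrArg Prod.snd (h2 x)⟩⟩⟩
  rw [show sq1.lift.hom.comp (rm j) = .id _ from ContinuousMap.ext hr]

theorem IsHE.comp {A B C : Type} [TopologicalSpace A] [TopologicalSpace B] [TopologicalSpace C]
    {f : C(A, B)} {g : C(B, C)} (hf : IsHE f) (hg : IsHE g) : IsHE (g.comp f) := by
  obtain ⟨f', h1, h2⟩ := hf
  obtain ⟨g', h3, h4⟩ := hg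
  exact ⟨f'.comp g', (((ContinuousMap.Homotopic.refl f').comp h3).comp (.refl f)).trans h1,
    (((ContinuousMap.Homotopic.refl g).comp h2).comp (.refl g')).trans h4⟩

theorem isHE_of_whe {f : X ⟶ Y} (hf : whe f) : IsHE (rm f) := by
  rw [St.whe_eq] at hf
  obtain ⟨Z, j, p, hj, hp, rfl⟩ := hf
  rw [show rm (j ≫ p) = (rm p).comp (rm j) from ContinuousMap.ext (rm_comp j p)]
  refine (isHE_of_anodyne hj).comp ?_
  obtain ⟨s, -, hs, -⟩ := rlpI_section hp
  have hw : whe s := whe.cancel_post (rlpI_le_whe _ hp) (hs ▸ whe_of_isIso _)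
  have hm : Mono s := mono_of_mono_fac hs
  have ha : trivCof s := ⟨hm, hw⟩
  rw [trivCof_eq] at ha
  obtain ⟨g, h1, h2⟩ := isHE_of_anodyne ha
  have h3 : (rm p).comp (rm s) = .id _ := ContinuousMap.ext fun y => by
    rw [ContinuousMap.comp_apply, ← rm_comp, hs, rm, CategoryTheory.Functor.map_id]
    rfl
  refine ⟨rm s, ?_, by rw [h3]⟩
  have h4 : (rm p).Homotopic g := by
    have := (ContinuousMap.Homotopic.refl (rm p)).comp h2
    rw [← ContinuousMap.comp_assoc, h3] at this
    exact this.symm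
  exact ((ContinuousMap.Homotopic.refl (rm s)).comp h4).trans h2

end Vale.Agent.P213Z
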