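import Vale.Agent.P213Z.Cell
import Vale.Agent.P213Z.Horn

/-! # Weak equivalences are the maps whose realization is a homotopy equivalence -/

namespace Vale.Agent.P213Z

open CategoryTheory Simplicial Opposite Topology Limits
open Vale.Agent.P246.T (Dl)
open Vale.Agent.P178.H924
open Vale.Agent.P213

theorem whe_eta_of {X Y : SSet.{0}} (f : X ⟶ Y) (hf : whe f) (hY : whe (eta Y)) : whe (eta X) := by
  refine whe.cancel_post (whe_sing_of_isHE (SSet.toTop.map f) (isHE_of_whe hf)) ?_
  rw [← eta_nat]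
  exact hf.comp hY

theorem whe_eta_of' {X Y : SSet.{0}} (f : X ⟶ Y) (hf : whe f) (hX : whe (eta X)) :
    whe (eta Y) := by
  refine hf.cancel_pre ?_
  rw [eta_nat]
  exact hX.comp (whe_sing_of_isHE (SSet.toTop.map f) (isHE_of_whe hf))

theorem dim_sigma (ι : Type) (K : SSet.{0}) (d : ℕ) [K.HasDimensionLT d] :
    (∐ fun _ : ι => K).HasDimensionLT d := by
  apply SSet.hasDimensionLT_of_isColimit (coproductIsCoproduct _)
  rintro ⟨j⟩
  exact inferInstanceAs (K.HasDimensionLT d)

theorem whe_eta_sigma (ι : Type) (d : ℕ) : whe (eta (∐ fun _ : ι => (Δ[d] : SSet.{0}))) := by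
  have := dim_sigma ι Δ[0] 1
  refine whe_eta_of (Limits.Sigma.map fun _ => SdWhe.toPt Δ[d]) ?_ (whe_eta_zero _)
  exact SdWhe.whe_coprod (fun _ => SdWhe.contr_stdSimplex d) (fun _ => SdWhe.contr_point)
    (fun _ => SSet.const (SSet.stdSimplex.obj₀Equiv.symm 0)) (coproductIsCoproduct _)
    (coproductIsCoproduct _) (fun _ => SdWhe.toPt Δ[d]) _ fun i => by simp

theorem Sk.mk' {n : ℕ} {A X : SSet.{0}} (j : A ⟶ X) [A.HasDimensionLT n]
    (h : ∀ k < n, ∀ σ : X _⦋k⦌, ∃ τ, j.app _ τ = σ) : Sk n j := by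
  refine fun k σ hσ => ⟨?_, fun hk => h k hk σ⟩
  rintro ⟨τ, rfl⟩
  exact A.dim_lt_of_nonDegenerate ⟨τ, fun h2 => hσ (SSet.degenerate_app_apply h2 j)⟩ n

open SSet.relativeCellComplexOfMono in
theorem whe_eta_dim (d : ℕ) : ∀ (K : SSet.{0}) [K.HasDimensionLT d], whe (eta K) := by
  induction d with
  | zero =>
    intro K hK
    have : K.HasDimensionLT 1 := SSet.hasDimensionLT_of_le K 0 1
    exact whe_eta_zero K
  | succ d hd =>
    intro K hK
    let i := (SSet.Subcomplex.ι (⊥ : K.Subcomplex))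
    have d1 : (sigmaBoundary i d).HasDimensionLT d := dim_sigma _ _ _
    have d2 : (SSet.skeletonOfMono i d : SSet.{0}).HasDimensionLT d := by
      have h2 : SSet.skeletonOfMono i d = K.skeleton d := by
        apply le_antisymm
        · refine sup_le ?_ (le_refl _)
          intro n x hx
          obtain ⟨y, rfl⟩ := hx
          exact y.2.elim
        · exact le_sup_right
      rw [h2]
      exact SdWhe.hasDimensionLT_skeleton K d
    have h : Att d (t i d) (l i d) (r i d) (b i d) :=
      { sq := isPushout i d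
        ml := inferInstance
        mr := inferInstance
        hl := Sk.mk' _ fun k hk σ => by
          by_contra h
          obtain ⟨c, f, _, -⟩ := isPushout_aux σ h
          exact absurd (SimplexCategory.len_le_of_epi f) (not_le.2 hk)
        hr := Sk.mk' _ fun k hk σ =>
          ⟨⟨σ.1, by rw [SSet.skeletonOfMono_obj_eq_top i hk]; trivial⟩, rfl⟩
        d₀ := dim_sigma _ _ _
        d := inferInstance }
    have h1 := h.step (hd _) (hd _) (whe_eta_sigma _ _)
    have h2 : SSet.skeletonOfMono i (d + 1) = ⊤ := by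
      rw [SSet.Subcomplex.eq_top_iff_of_hasDimensionLT _ (d + 1)]
      intro j hj x hx
      exact Or.inr (K.mem_skeleton x hj)
    have h3 : IsIso (SSet.skeletonOfMono i (d + 1)).ι := by
      rw [h2]
      exact inferInstanceAs (IsIso (SSet.Subcomplex.topIso K).hom)
    exact whe_eta_of' _ (whe_of_isIso (SSet.skeletonOfMono i (d + 1)).ι) h1

/-- the unit is a weak equivalence -/
theorem whe_eta (X : SSet.{0}) : whe (eta X) := by
  refine whe_of_chains _ X.skeleton ⟨fun n => SubU (Bs X n), fun _ _ h _ _ hx t => Bs_mono h (hx t)⟩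
    X.iSup_skeleton ?_
    (fun n => eta _ ≫ toSubU (SSet.toTop.map (X.skeleton n).ι) (Bs X n) fun a => ⟨a, rfl⟩)
    (fun n => (eta_nat _).symm) fun n => whe.comp ?_ ?_
  · rw [← top_le_iff]
    intro n x _
    rw [Subfunctor.iSup_obj, Set.mem_iUnion]
    obtain ⟨m, hm⟩ := exists_Bs (isCompact_range (sx x).continuous)
    exact ⟨m, fun t => hm ⟨t, rfl⟩⟩
  · exact @whe_eta_dim n _ (SdWhe.hasDimensionLT_skeleton X n)
  · exact whe_toSubU _ (isEmbedding_rm _) _ _ ContinuousMap.fst (fun _ => rfl) (fun _ h => h)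
      (fun _ h _ => h) fun _ => rfl

theorem whe_iff_isHE {X Y : SSet.{0}} (f : X ⟶ Y) : whe f ↔ IsHE (rm f) := by
  refine ⟨isHE_of_whe, fun h => whe.cancel_post (whe_eta Y) ?_⟩
  rw [eta_nat]
  exact (whe_eta X).comp (whe_sing_of_isHE _ h)

end Vale.Agent.P213Z
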