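import Vale.Agent.P213Z.Defs
import Vale.Agent.P213Z.Main

/-! # Transfer of the Thomason theorem to the topological weak equivalences -/

open CategoryTheory

namespace Vale.Agent.P213Z

theorem weq_eq : weq = P213.SX.whe := by
  refine Eq.trans ?_ P213.St.whe_eq
  ext X Y f
  rw [whe_iff_isHE]
  constructor
  · rintro ⟨e, he⟩
    exact ⟨e.invFun, by rw [rm, ← he]; exact e.left_inv, by rw [rm, ← he]; exact e.right_inv⟩
  · rintro ⟨g, h1, h2⟩
    exact ⟨⟨rm f, g, h1, h2⟩, rfl⟩

theorem isThomason_iff {D : Type 1} [Category.{0} D] (N : D ⥤ SSet.{0}) :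
    IsThomason N ↔ P213.SX.IsThomason N := by
  unfold IsThomason IsQuillenEquivalence thC thW
  rw [weq_eq]
  rfl

end Vale.Agent.P213Z
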