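import Vale.Agent.P213Z.Pi1
import Vale.Agent.P213Z.DefsA
import Vale.Agent.P213Z.Final

/-! # Weak homotopy equivalences through homotopy groups -/

namespace Vale.Agent.P213Z

open CategoryTheory Simplicial Opposite Topology Limits SSet.modelCategoryQuillen
open scoped Topology.Homotopy
open Vale.Agent.P246.T (Dl Dk bdk)
open Vale.Agent.P178.H924
open Vale.Agent.P213
open G (piZeroMap loopMap piMap IsWHE)

/-- the cube -/
abbrev Cb (n : ℕ) : Type := Fin n → unitInterval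

/-- the boundary of the cube -/
abbrev Cd (n : ℕ) : Set (Cb n) := Cube.boundary (Fin n)

theorem dk_abs {n : ℕ} (x : Dk n) (i) : |x.1 i| ≤ 1 :=
  (norm_le_pi_norm x.1 i).trans (mem_closedBall_zero_iff.1 x.2)

/-- the cube and the disc -/
noncomputable def cubeDisc (n : ℕ) : Cb n ≃ₜ Dk n where
  toFun u := ⟨fun i => 2 * u i - 1, mem_closedBall_zero_iff.2
    ((pi_norm_le_iff_of_nonneg zero_le_one).2 fun i =>
      abs_le.2 ⟨by linarith [(u i).2.1], by linarith [(u i).2.2]⟩)⟩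
  invFun x i := ⟨(x.1 i + 1) / 2, by linarith [(abs_le.1 (dk_abs x i)).1],
    by linarith [(abs_le.1 (dk_abs x i)).2]⟩
  left_inv u := funext fun i => Subtype.ext (by dsimp only; ring)
  right_inv x := Subtype.ext (funext fun i => by dsimp only; ring)
  continuous_toFun := Continuous.subtype_mk (by fun_prop) _
  continuous_invFun := continuous_pi fun i => Continuous.subtype_mk
    ((((continuous_apply i).comp continuous_subtype_val).add continuous_const).div_const _) _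

theorem cubeSimplex (n : ℕ) : ∃ e : Cb n ≃ₜ Dl (n + 1), ∀ u, u ∈ Cd n ↔ ¬ Inr (e u) := by
  obtain ⟨h, hh⟩ := Vale.Agent.P246.T.CV.simplexBall n
  refine ⟨(cubeDisc n).trans h.symm, fun u => ?_⟩
  have h1 := hh (h.symm (cubeDisc n u))
  rw [h.apply_symm_apply] at h1
  have h2 : ¬ Inr (((cubeDisc n).trans h.symm) u) ↔ ∃ i, h.symm (cubeDisc n u) i = 0 := by
    rw [Inr]
    push Not
    rfl
  rw [h2, h1]
  constructor
  · rintro ⟨i, hi⟩
    refine le_antisymm (mem_closedBall_zero_iff.1 (cubeDisc n u).2)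
      (le_trans (le_of_eq ?_) (norm_le_pi_norm _ i))
    change 1 = abs (2 * (u i : ℝ) - 1)
    rcases hi with hi | hi <;> rw [hi] <;> norm_num
  · intro h3
    by_contra h4
    refine absurd h3 (ne_of_lt ((pi_norm_lt_iff zero_lt_one).2 fun i => ?_))
    have h5 : (u i : ℝ) ≠ 0 := fun e => h4 ⟨i, Or.inl (Subtype.ext e)⟩
    have h6 : (u i : ℝ) ≠ 1 := fun e => h4 ⟨i, Or.inr (Subtype.ext e)⟩
    have h7 := lt_of_le_of_ne (u i).2.1 h5.symm
    have h8 := lt_of_le_of_ne (u i).2.2 h6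
    exact abs_lt.2 ⟨by change -1 < 2 * (u i : ℝ) - 1; linarith,
      by change 2 * (u i : ℝ) - 1 < 1; linarith⟩

/-- adding a coordinate -/
def consH (n : ℕ) : unitInterval × Cb n ≃ₜ Cb (n + 1) where
  toFun q := Fin.cons q.1 q.2
  invFun t := (t 0, Fin.tail t)
  left_inv _ := rfl
  right_inv t := Fin.cons_self_tail t
  continuous_toFun := Continuous.finCons (A := fun _ => unitInterval) continuous_fst continuous_snd
  continuous_invFun := (continuous_apply 0).prodMk continuous_id.finTail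

theorem consH_mem {n : ℕ} (q : unitInterval × Cb n) :
    (q.1 = 1 ∨ (q.1 = 0 ∨ q.2 ∈ Cd n)) ↔ consH n q ∈ Cd (n + 1) := by
  constructor
  · rintro (h | h | ⟨i, h⟩)
    · exact ⟨0, Or.inr h⟩
    · exact ⟨0, Or.inl h⟩
    · exact ⟨i.succ, h⟩
  · rintro ⟨i, h⟩
    induction i using Fin.cases with
    | zero => exact h.elim (fun h => Or.inr (Or.inl h)) Or.inl
    | succ i => exact Or.inr (Or.inr ⟨i, h⟩)

theorem isClosed_Cd (n : ℕ) : IsClosed (Cd n) := by
  have : Cd n = ⋃ i, ({t | t i = 0} ∪ {t | t i = 1} : Set (Cb n)) := by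
    ext t
    simp [Cube.boundary]
  rw [this]
  exact isClosed_iUnion_of_finite fun i => (isClosed_eq (continuous_apply i) continuous_const).union
    (isClosed_eq (continuous_apply i) continuous_const)

variable {E B X Y F : TopCat.{0}}

theorem ext_cube {p : E ⟶ B} (hp : I.rlp (TopCat.toSSet.map p)) (n : ℕ) : Ext p (Cd n) := by
  obtain ⟨e, he⟩ := cubeSimplex n
  exact (ext_of_rlp hp n).of_homeo e he

theorem ext_inj {p : E ⟶ B} (hp : I.rlp (TopCat.toSSet.map p)) {n : ℕ} (u v : C(Cb n, E))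
    (huv : ∀ t ∈ Cd n, u t = v t) (H : (p.hom.comp u).HomotopicRel (p.hom.comp v) (Cd n)) :
    u.HomotopicRel v (Cd n) := by
  classical
  obtain ⟨H⟩ := H
  let f : unitInterval × Cb n → E := fun q => if q.1 = 1 then v q.2 else u q.2
  have f1 : ∀ q, q.1 = 1 → f q = v q.2 := fun q h => if_pos h
  have f2 : ∀ q, q.1 = 0 ∨ q.2 ∈ Cd n → f q = u q.2 := fun q h => by
    by_cases h1 : q.1 = 1
    · rw [f1 q h1]
      exact (huv _ (h.resolve_left fun h2 => zero_ne_one (h2.symm.trans h1))).symm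
    · exact if_neg h1
  have hc : ContinuousOn f ({q | q.1 = 1} ∪ {q | q.1 = 0 ∨ q.2 ∈ Cd n}) :=
    ContinuousOn.union_of_isClosed ((v.continuous.comp continuous_snd).continuousOn.congr f1)
      ((u.continuous.comp continuous_snd).continuousOn.congr f2)
      (isClosed_eq continuous_fst continuous_const)
      ((isClosed_eq continuous_fst continuous_const).union
        ((isClosed_Cd n).preimage continuous_snd))
  obtain ⟨c, h1, -⟩ := (ext_cube hp (n + 1)).of_homeo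
    (S := {q | q.1 = 1} ∪ {q | q.1 = 0 ∨ q.2 ∈ Cd n}) (consH n) consH_mem
    ⟨_, hc.domRestrict⟩ H.toContinuousMap (by
      rintro ⟨⟨s, t⟩, h | h⟩
      · obtain rfl : s = 1 := h
        exact (congrArg p.hom (f1 _ rfl)).trans (H.apply_one t).symm
      · refine (congrArg p.hom (f2 _ h)).trans ?_
        rcases h with h | h
        · obtain rfl : s = 0 := h
          exact (H.apply_zero t).symm
        · exact (H.eq_fst s h).symm)
  exact ⟨⟨⟨c, fun t => (h1 ⟨(0, t), Or.inr (Or.inl rfl)⟩).trans (f2 _ (Or.inl rfl)),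
    fun t => (h1 ⟨(1, t), Or.inl rfl⟩).trans (f1 _ rfl)⟩,
    fun s t ht => (h1 ⟨(s, t), Or.inr (Or.inr ht)⟩).trans (f2 _ (Or.inr ht))⟩⟩

/-- the mapping path space -/
abbrev Eg (g : X ⟶ Y) : TopCat.{0} :=
  TopCat.of {q : X × C(unitInterval, Y) // q.2 0 = g.hom q.1}

/-- the end point -/
def pg (g : X ⟶ Y) : Eg g ⟶ Y := TopCat.ofHom ⟨fun q => q.1.2 1, by fun_prop⟩

/-- the constant paths -/
def ig (g : X ⟶ Y) : X ⟶ Eg g := TopCat.ofHom ⟨fun x => ⟨(x, .const _ (g.hom x)), rfl⟩,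
  (continuous_id.prodMk (ContinuousMap.continuous_const'.comp g.hom.continuous)).subtype_mk _⟩

/-- the projection -/
def rg (g : X ⟶ Y) : C(Eg g, X) := ⟨fun q => q.1.1, by fun_prop⟩

/-- maps to the mapping path space -/
def mkE (g : X ⟶ Y) {Z : Type} [TopologicalSpace Z] (U : C(Z, X)) (Γ : C(Z × unitInterval, Y))
    (h : ∀ z, Γ (z, 0) = g.hom (U z)) : C(Z, Eg g) :=
  ⟨fun z => ⟨(U z, Γ.curry z), h z⟩, (U.continuous.prodMk Γ.curry.continuous).subtype_mk _⟩

theorem isHE_ig (g : X ⟶ Y) : IsHE (ig g).hom := by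
  refine ⟨rg g, .refl _, ⟨⟨mkE g ((rg g).comp .snd) ⟨fun q => q.1.2.1.2 (q.1.1 * q.2), by fun_prop⟩
    fun z => ?_, fun q => ?_, fun q => ?_⟩⟩⟩
  · exact (congrArg z.2.1.2 (mul_zero _)).trans z.2.2
  · exact Subtype.ext (Prod.ext rfl (ContinuousMap.ext fun s =>
      (congrArg q.1.2 (zero_mul _)).trans q.2))
  · exact Subtype.ext (Prod.ext rfl (ContinuousMap.ext fun s => congrArg q.1.2 (one_mul _)))

theorem rt_rt {n : ℕ} (k : Fin (n + 2)) (t) : rt k (rt k t) = rt k t := by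
  obtain ⟨i, u, hu⟩ := exists_rt k t
  exact ln_horn k (hu ▸ mh_horn k (dH k i) u) _

theorem tl_pg (g : X ⟶ Y) : TL (pg g) := by
  intro n k a b hab
  let U : C(Dl (n + 2), X) := (rg g).comp (a.comp (rt k))
  obtain ⟨c, h1, h2⟩ := tl_ends Y n k
    ((ContinuousMap.snd.comp ⟨Subtype.val, continuous_subtype_val⟩).comp (a.comp (rt k)))
    ((g.hom.comp U).prodMk b) fun t => Prod.ext
      ((a (rt k t)).2.trans (congrArg (fun w => g.hom (a w).1.1) (rt_rt k t).symm))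
      ((hab _).trans (congrArg b (rt_rt k t)))
  refine ⟨⟨fun t => ⟨(U t, c t), congrArg Prod.fst (h2 t)⟩,
    (U.continuous.prodMk c.continuous).subtype_mk _⟩, fun t ht => ?_,
    fun t => congrArg Prod.snd (h2 t)⟩
  have e : rt k t = t := ln_horn k ht _
  exact Subtype.ext (Prod.ext (congrArg (fun w => (a w).1.1) e)
    ((h1 t ht).trans (congrArg (fun w => (a w).1.2) e)))

theorem whe_iff_rlp (g : X ⟶ Y) :
    whe (TopCat.toSSet.map g) ↔ I.rlp (TopCat.toSSet.map (pg g)) := by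
  have e : TopCat.toSSet.map g = TopCat.toSSet.map (ig g) ≫ TopCat.toSSet.map (pg g) :=
    TopCat.toSSet.map_comp (ig g) (pg g)
  have hi := whe_sing_of_isHE _ (isHE_ig g)
  rw [e]
  exact ⟨fun h => rlpI_of_kanFib_of_whe _ (tl_pg g).fib (hi.cancel_pre h),
    fun h => hi.comp (rlpI_le_whe _ h)⟩

theorem isWHE_of_rlp {g : X ⟶ Y} (hp : I.rlp (TopCat.toSSet.map (pg g))) : IsWHE g.hom := by
  have inj : ∀ (n) (u v : C(Cb n, X)), (∀ t ∈ Cd n, u t = v t) →
      (g.hom.comp u).HomotopicRel (g.hom.comp v) (Cd n) → u.HomotopicRel v (Cd n) :=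
    fun n u v huv H => (ext_inj hp ((ig g).hom.comp u) ((ig g).hom.comp v)
      (fun t ht => congrArg (ig g).hom (huv t ht)) H).comp_continuousMap (rg g)
  have e0 : ∀ t, t ∉ Cd 0 := fun t ⟨i, _⟩ => i.elim0
  refine ⟨⟨?_, ?_⟩, fun n x => ⟨?_, ?_⟩⟩
  · rintro ⟨x⟩ ⟨x'⟩ h
    obtain ⟨γ⟩ : Joined (g.hom x) (g.hom x') := Quotient.exact h
    obtain ⟨H⟩ := inj 0 (.const _ x) (.const _ x') (fun t ht => (e0 t ht).elim)
      ⟨⟨γ.toHomotopyConst, fun _ t ht => (e0 t ht).elim⟩⟩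
    exact Quotient.sound ((ContinuousMap.homotopic_const_iff (Y := Cb 0)).1 ⟨H.toHomotopy⟩)
  · rintro ⟨y⟩
    obtain ⟨c, -, h⟩ := ext_cube hp 0 ⟨fun s => (e0 _ s.2).elim, continuous_of_const
      fun s => (e0 _ s.2).elim⟩ (.const _ y) fun s => (e0 _ s.2).elim
    exact ⟨Quotient.mk _ (c 0).1.1, Quotient.sound ⟨⟨(c 0).1.2, (c 0).2, h 0⟩⟩⟩
  · rintro ⟨u⟩ ⟨v⟩ h
    exact Quotient.sound (inj _ u.1 v.1 (fun t ht => (u.2 t ht).trans (v.2 t ht).symm)
      (Quotient.exact h))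
  · rintro ⟨w⟩
    obtain ⟨c, h1, h2⟩ := ext_cube hp (n + 1) (.const _ ((ig g).hom x)) w.1
      fun s => (w.2 _ s.2).symm
    refine ⟨Quotient.mk _ ⟨(rg g).comp c, fun t ht => congrArg (rg g) (h1 ⟨t, ht⟩)⟩,
      Quotient.sound ⟨⟨⟨⟨fun q => (c q.2).1.2 q.1, by fun_prop⟩, fun t => (c t).2, h2⟩,
        fun s t ht => ?_⟩⟩⟩
    have h3 : c t = (ig g).hom x := h1 ⟨t, ht⟩
    change (c t).1.2 s = g.hom (c t).1.1
    rw [h3]
    rfl

theorem path_fix {A A' : Type} [TopologicalSpace A] [TopologicalSpace A'] (L : C(A, A'))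
    {a a₀ : A} (γ : Path (L a) (L a₀)) (h : Joined a a₀)
    (hs : ∀ κ : Path (L a₀) (L a₀), ∃ μ : Path a₀ a₀, (μ.map L.continuous).Homotopic κ) :
    ∃ K : Path a a₀, (K.map L.continuous).Homotopic γ := by
  obtain ⟨K⟩ := h
  obtain ⟨μ, hμ⟩ := hs ((K.map L.continuous).symm.trans γ)
  refine ⟨K.trans μ, ?_⟩
  rw [Path.map_trans]
  exact ((Path.Homotopic.refl _).hcomp hμ).trans ((Path.Homotopic.trans_assoc _ _ _).symm.trans
    (((Path.Homotopic.trans_symm _).hcomp (.refl _)).trans (Path.Homotopic.refl_trans _)))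

/-- families of loops -/
def toL {Z : Type} [TopologicalSpace Z] {n : ℕ} {x : X} (Φ : C(Z × Cb n, X))
    (h : ∀ z, ∀ t ∈ Cd n, Φ (z, t) = x) : C(Z, Ω^ (Fin n) X x) :=
  ⟨fun z => ⟨Φ.curry z, h z⟩, Φ.curry.continuous.subtype_mk _⟩

/-- the map on loop spaces -/
def lmap (g : X ⟶ Y) (n : ℕ) (x : X) : C(Ω^ (Fin n) X x, Ω^ (Fin n) Y (g.hom x)) :=
  ⟨loopMap g.hom n x,
    ((ContinuousMap.continuous_postcomp g.hom).comp continuous_subtype_val).subtype_mk _⟩

theorem sur_path {g : X ⟶ Y} {n : ℕ} {x : X} (h : Function.Surjective (piMap g.hom (n + 1) x))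
    (κ : Path (lmap g n x GenLoop.const) (lmap g n x GenLoop.const)) :
    ∃ μ : Path GenLoop.const GenLoop.const, (μ.map (lmap g n x).continuous).Homotopic κ := by
  have hb : ∀ {s : unitInterval} {t : Cb n}, s = 1 ∨ (s = 0 ∨ t ∈ Cd n) → consH n (s, t) ∈ Cd _ :=
    fun h => (consH_mem _).1 h
  let k : C(unitInterval × Cb n, Y) := ⟨fun q => κ q.1 q.2, by fun_prop⟩
  obtain ⟨⟨w⟩, hw⟩ := h (Quotient.mk _ ⟨k.comp (consH n).symm, fun t ht => by
    obtain ⟨⟨s, t⟩, rfl⟩ := (consH n).surjective t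
    change κ s t = _
    rcases (consH_mem _).2 ht with h | h | h
    · rw [show s = 1 from h, κ.target]
      rfl
    · rw [show s = 0 from h, κ.source]
      rfl
    · exact (κ s).2 t h⟩)
  obtain ⟨H⟩ : GenLoop.Homotopic _ _ := Quotient.exact hw
  refine ⟨⟨toL (w.1.comp (consH n)) fun s t ht => w.2 _ (hb (Or.inr (Or.inr ht))),
    GenLoop.ext _ _ fun t => w.2 _ (hb (Or.inr (Or.inl rfl))),
    GenLoop.ext _ _ fun t => w.2 _ (hb (Or.inl rfl))⟩, ⟨⟨⟨toL
      ⟨fun q => H (q.1.1, consH n (q.1.2, q.2)), by fun_prop⟩ fun z t ht => ?_,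
      fun s => GenLoop.ext _ _ fun t => H.apply_zero _,
      fun s => GenLoop.ext _ _ fun t => H.apply_one _⟩, fun r s hs => ?_⟩⟩⟩
  · exact (H.eq_fst _ (hb (Or.inr (Or.inr ht)))).trans
      (congrArg g.hom (w.2 _ (hb (Or.inr (Or.inr ht)))))
  · exact GenLoop.ext _ _ fun t => H.eq_fst _ (hb (hs.elim (fun h => Or.inr (Or.inl h)) Or.inl))

theorem nul_of_cube {f₀ : F}
    (h : ∀ (n : ℕ) (z : Ω^ (Fin n) F f₀), GenLoop.Homotopic z GenLoop.const) : Nul F f₀ := by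
  intro n z hz
  obtain ⟨e, he⟩ := cubeSimplex n
  obtain ⟨H⟩ := h n ⟨z.comp e, fun t ht => hz _ ((he t).1 ht)⟩
  refine ⟨⟨fun q => H (q.2, e.symm q.1), by fun_prop⟩,
    fun t => (H.apply_zero _).trans (congrArg z (e.apply_symm_apply t)),
    fun t => H.apply_one _, fun t s ht => H.eq_snd _ ((he _).2 ?_)⟩
  rwa [e.apply_symm_apply]

/-- the affine reparametrization -/
def sh : C(unitInterval × unitInterval, unitInterval) :=
  ⟨fun q => unitInterval.symm (unitInterval.symm q.1 * unitInterval.symm q.2), by fun_prop⟩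

theorem nul_fib {g : X ⟶ Y} {x : X} (hi : ∀ n, Function.Injective (piMap g.hom n x))
    (hs : ∀ n, Function.Surjective (piMap g.hom (n + 1) x)) :
    Nul (Fib (pg g) (g.hom x)) ⟨(ig g).hom x, rfl⟩ := by
  refine nul_of_cube fun n z => ?_
  have zb : ∀ t ∈ Cd n, (z t).1 = (ig g).hom x := fun t ht => congrArg Subtype.val (z.2 t ht)
  let u : Ω^ (Fin n) X x := ⟨⟨fun t => (z t).1.1.1, by fun_prop⟩,
    fun t ht => congrArg (rg g) (zb t ht)⟩
  let Γ : C(unitInterval × Cb n, Y) := ⟨fun q => (z q.2).1.1.2 q.1, by fun_prop⟩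
  have hΓ : ∀ s, ∀ t ∈ Cd n, Γ (s, t) = g.hom x := fun s t ht =>
    congrArg (fun e : Eg g => e.1.2 s) (zb t ht)
  let γ : Path (lmap g n x u) (lmap g n x GenLoop.const) := ⟨toL Γ hΓ,
    GenLoop.ext _ _ fun t => (z t).1.2, GenLoop.ext _ _ fun t => (z t).2⟩
  obtain ⟨H⟩ : GenLoop.Homotopic u GenLoop.const := Quotient.exact (hi n (a₁ := Quotient.mk _ u)
    (a₂ := Quotient.mk _ GenLoop.const) (Quotient.sound ⟨⟨⟨Γ, fun t => (z t).1.2, fun t => (z t).2⟩,
      fun s t ht => (hΓ s t ht).trans (congrArg g.hom (u.2 t ht)).symm⟩⟩))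
  obtain ⟨K, ⟨G⟩⟩ := path_fix (lmap g n x) γ ⟨⟨toL H.toContinuousMap fun s t ht => H.eq_snd s ht,
    GenLoop.ext _ _ H.apply_zero, GenLoop.ext _ _ H.apply_one⟩⟩ (sur_path (hs n))
  let mk : ∀ (U : C(unitInterval × Cb n, X)) (Γ : C((unitInterval × Cb n) × unitInterval, Y)),
      (∀ z, Γ (z, 0) = g.hom (U z)) → (∀ z, Γ (z, 1) = g.hom x) →
      C(unitInterval × Cb n, Fib (pg g) (g.hom x)) := fun U Γ h0 h1 =>
    ⟨fun z => ⟨mkE g U Γ h0 z, h1 z⟩, (mkE g U Γ h0).continuous.subtype_mk _⟩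
  let H₁ := mk (u.1.comp .snd) ⟨fun q => G (q.1.1, q.2) q.1.2, by fun_prop⟩
    (fun q => congrArg (fun w => w q.2) (G.source q.1))
    (fun q => congrArg (fun w => w q.2) (G.target q.1))
  let H₂ := mk ⟨fun q => K q.1 q.2, by fun_prop⟩
    ⟨fun q => g.hom (K (sh (q.1.1, q.2)) q.1.2), by fun_prop⟩
    (fun q => congrArg (fun s => g.hom (K s q.2)) (by simp [sh]))
    (fun q => (congrArg (fun s => g.hom (K s q.2)) (show sh (q.1, 1) = 1 by simp [sh])).trans
      (congrArg (fun w => g.hom (w q.2)) K.target))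
  have ex : ∀ {a b : Fib (pg g) (g.hom x)}, a.1.1.1 = b.1.1.1 → (∀ s, a.1.1.2 s = b.1.1.2 s) →
      a = b := fun h1 h2 => Subtype.ext (Subtype.ext (Prod.ext h1 (ContinuousMap.ext h2)))
  have b1 : ∀ r, ∀ t ∈ Cd n, H₁ (r, t) = ⟨(ig g).hom x, rfl⟩ := fun r t ht =>
    ex (u.2 t ht) fun s => (G (r, s)).2 t ht
  have b2 : ∀ r, ∀ t ∈ Cd n, H₂ (r, t) = ⟨(ig g).hom x, rfl⟩ := fun r t ht =>
    ex ((K r).2 t ht) fun s => congrArg g.hom ((K _).2 t ht)
  refine ContinuousMap.HomotopicRel.trans (g := H₁.curry 0)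
    (ContinuousMap.HomotopicRel.symm ⟨⟨⟨H₁, fun t => rfl, fun t => ?_⟩,
      fun r t ht => (b1 r t ht).trans (b1 0 t ht).symm⟩⟩)
    ⟨⟨⟨H₂, fun t => ?_, fun t => ?_⟩, fun r t ht => (b2 r t ht).trans (b1 0 t ht).symm⟩⟩
  · exact ex rfl fun s => congrArg (fun w => w t) (G.apply_one s)
  · refine ex (congrArg (fun w => w t) K.source) fun s => ?_
    exact (congrArg (fun s => g.hom (K s t)) (show sh (0, s) = s by simp [sh])).trans
      (congrArg (fun w => w t) (G.apply_zero s)).symm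
  · refine ex (congrArg (fun w => w t) K.target) fun s => ?_
    exact (congrArg (fun s => g.hom (K s t)) (show sh (1, s) = 1 by simp [sh])).trans
      (congrArg (fun w => g.hom (w t)) K.target)

theorem inj_zero {f : C(X, Y)} (x : X) (hf : Function.Injective (piZeroMap f)) :
    Function.Injective (piMap f 0 x) := by
  have h : ∀ a, homotopyGroupEquivZerothHomotopyOfIsEmpty (Fin 0) (f x) (piMap f 0 x a) =
      piZeroMap f (homotopyGroupEquivZerothHomotopyOfIsEmpty (Fin 0) x a) := by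
    rintro ⟨a⟩
    rfl
  intro a b e
  exact (homotopyGroupEquivZerothHomotopyOfIsEmpty (Fin 0) x).injective
    (hf (by rw [← h, ← h, e]))

theorem isWHE_iff (g : X ⟶ Y) : IsWHE g.hom ↔ whe (TopCat.toSSet.map g) := by
  rw [whe_iff_rlp]
  refine ⟨fun h => rlp_of_nul (tl_pg g) fun y => ?_, isWHE_of_rlp⟩
  obtain ⟨⟨x⟩, hx⟩ := h.1.2 (Quotient.mk _ y)
  refine ⟨g.hom x, _, Joined.symm (Quotient.exact hx), nul_fib (fun n => ?_) fun n => (h.2 n x).2⟩
  cases n with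
  | zero => exact inj_zero x h.1.1
  | succ n => exact (h.2 n x).1

theorem gweq_eq : G.weq = P213.SX.whe := by
  refine Eq.trans ?_ P213.St.whe_eq
  ext X Y f
  refine (isWHE_iff _).trans ⟨fun h => whe.cancel_post (whe_eta Y) ?_,
    fun h => (whe_eta X).cancel_pre ?_⟩
  · rw [eta_nat]
    exact (whe_eta X).comp h
  · rw [← eta_nat]
    exact h.comp (whe_eta Y)

end Vale.Agent.P213Z
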