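import Vale.Agent.P213Z.DefsB
import Vale.Agent.P213Z.Pi2

/-! # Transfer of the Thomason theorem to the literal definitions -/

open CategoryTheory

namespace Vale.Agent.P213Z.G

open Vale.Agent.P213

/-- the comparison of the two orientals -/
noncomputable def toOr (a : SimplexCategory) :
    (P213.oriental ⋙ glob).obj a ⟶ oriental.obj a :=
  ⟨fun k c => ⟨supp (St2.oC c.1).ch, isCell_supp (St2.oC c.1).tb, (supp_sd _ _ _).symm.trans
      (congrArg (fun x : St2.Tab _ => supp x.ch)
        ((St2.oC_d false k c.1).symm.trans (congrArg St2.oC c.2)))⟩,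
    fun b j _ _ c => Cell.ext ((congrArg (fun x : St2.Tab _ => supp x.ch)
      (St2.oC_d b j c.1)).trans (supp_sd _ _ _)), fun _ _ _ _ => rfl,
    fun j _ _ c c' p _ => Cell.ext ((congrArg (fun x : St2.Tab _ => supp x.ch)
      (St2.oC_comp j c.1 c'.1 (congrArg Subtype.val p))).trans
        (supp_cc j (congrArg St2.Tab.ch (St2.oC_cp (congrArg Subtype.val p)))))⟩

theorem isIso_toOr (a : SimplexCategory) : IsIso (toOr a) := isIso_of_bij _ fun k => by
  constructor
  · intro c c' h
    have h1 := congrArg St2.tC (supp_inj (congrArg Cell.S h))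
    exact Subtype.ext ((St2.tC_oC c.1).symm.trans (h1.trans (St2.tC_oC c'.1)))
  · intro x
    obtain ⟨y, hy⟩ := exists_tab x.isCell
    have h1 : (St2.Tabs _).bd false k y = y :=
      supp_inj ((supp_sd _ _ _).trans (by rw [hy, x.dim]))
    refine ⟨⟨St2.tC y, (St2.tC_bd _ _ _).symm.trans (congrArg St2.tC h1)⟩, Cell.ext ?_⟩
    exact (congrArg (fun x : St2.Tab _ => supp x.ch) (St2.oC_tC y)).trans hy

/-- the two cosimplicial objects agree -/
noncomputable def orIso : P213.oriental ⋙ glob ≅ oriental :=
  NatIso.ofComponents (fun a => @asIso _ _ _ _ _ (isIso_toOr a)) fun θ =>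
    Fun.ext fun _ c => Cell.ext ((congrArg (fun x : St2.Tab _ => supp x.ch)
      (St2.oC_map θ.toOrderHom c.1)).symm.trans (supp_push θ.toOrderHom (St2.oC c.1).ch))

/-- the two nerves agree -/
noncomputable def nerveIso (n : ℕ∞) : nerveN n ≅ globN n ⋙ nerve n :=
  NatIso.ofComponents (fun X => NatIso.ofComponents (fun a =>
    ((Functor.FullyFaithful.ofFullyFaithful glob).homEquiv.trans
      ((orIso.app a.unop).homCongr (Iso.refl _))).toIso) (by
      intro a b θ
      ext f
      exact (orIso.inv.naturality_assoc θ.unop (glob.map f)).symm)) (by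
    intro X Y φ
    ext a f
    rfl)

theorem isThomason_of {D : Type 1} [Category.{0} D] {n : ℕ∞} (hn : 1 ≤ n)
    (F : D ≌ P213.NCat.{0} n) {N : D ⥤ SSet.{0}} (e : F.functor ⋙ nerveN n ≅ N) :
    SX.IsThomason N := by
  have hT : St.IsThomason N := St.isThomason_of_iso e
    (St.isThomason_of_equiv F (isThomason_nerveN hn))
  have eW : SX.thW N = (P213.thW (nerveN n)).inverseImage F.functor :=
    (St.thW_iso e).symm.trans (St.thW_transport _)
  have eF : SX.thF N = (P213.thF (nerveN n)).inverseImage F.functor :=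
    (St.thF_iso e).symm.trans (St.thF_transport _)
  have eC : SX.thC N = (P213.thC (nerveN n)).inverseImage F.functor :=
    (St.thC_iso e).symm.trans (St.thC_transport _)
  refine ⟨hT.1, hT.2.1, ?_, ?_, hT.2.2.1, fun c h => ⟨hT.2.2.2 c h, ?_, ?_⟩⟩
  · rw [eW, eF, eC]
    exact SX.isProper_inverseImage _ (SX.isProper_nerveN hn)
  · exact SX.isLocallyPresentable_of_equiv F
  · exact SX.rlp_I h
  · exact SX.rlp_J h

theorem main (n : ℕ∞) (hn : 1 ≤ n) : IsThomason (nerve n) := by
  have h := isThomason_of hn (globN n).asEquivalence.symm (N := nerve n)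
    (Functor.isoWhiskerLeft _ (nerveIso n) ≪≫ (Functor.associator _ _ _).symm ≪≫
      Functor.isoWhiskerRight (globN n).asEquivalence.counitIso _ ≪≫ Functor.leftUnitor _)
  unfold IsThomason IsQuillenEquivalence thC thW
  rw [gweq_eq]
  exact h

end Vale.Agent.P213Z.G
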