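import Vale.Agent.P213Z.Street

/-! # The laws of the operations on Street's pairs -/

open Finset

namespace Vale.Agent.P213Z.G

variable {m l r : ℕ} {S T U V : Bool → Fs m}

theorem mem_cc {k b t} : t ∈ cc k S T b ↔
    (t ∈ S b ∧ (b = true → #t ≠ k + 1)) ∨ (t ∈ T b ∧ (b = false → #t ≠ k + 1)) := by
  cases b <;> simp [cc]

theorem pair_ext (h : ∀ t, (t ∈ S false ↔ t ∈ T false) ∧ (t ∈ S true ↔ t ∈ T true)) : S = T :=
  funext fun b => Finset.ext fun t => by
    cases b
    exacts [(h t).1, (h t).2]

theorem pair_mem (h : S = T) (t) : (t ∈ S false ↔ t ∈ T false) ∧ (t ∈ S true ↔ t ∈ T true) := by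
  rw [h]
  exact ⟨Iff.rfl, Iff.rfl⟩

theorem bd_bd_lt (a b) {i j} (h : i < j) : bd a i (bd b j S) = bd a i S := pair_ext fun t => by
  simp only [mem_bd]
  grind

theorem bd_bd_le (a b) {i j} (h : j ≤ i) : bd a i (bd b j S) = bd b j S := pair_ext fun t => by
  simp only [mem_bd]
  cases a <;> cases b <;> grind

theorem bd_of_dim (a) {i j} (h : j ≤ i) (e : bd false j S = S) : bd a i S = S := by
  rw [← e, bd_bd_le _ _ h]

theorem bd_cc_src {j} (p : bd true j S = bd false j T) : bd false j (cc j S T) = bd false j S :=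
  pair_ext fun t => by
    have := pair_mem p t
    simp only [mem_bd, mem_cc] at this ⊢
    grind

theorem bd_cc_tgt {j} (p : bd true j S = bd false j T) : bd true j (cc j S T) = bd true j T :=
  pair_ext fun t => by
    have := pair_mem p t
    simp only [mem_bd, mem_cc] at this ⊢
    grind

theorem bd_cc (a) {i j} (h : i < j) : bd a j (cc i S T) = cc i (bd a j S) (bd a j T) :=
  pair_ext fun t => by
    simp only [mem_bd, mem_cc]
    grind

theorem cc_idl (j) : cc j (bd false j S) S = S := pair_ext fun t => by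
  simp only [mem_bd, mem_cc]
  grind

theorem cc_idr (j) : cc j S (bd true j S) = S := pair_ext fun t => by
  simp only [mem_bd, mem_cc]
  grind

theorem cc_asc (j) : cc j (cc j S T) U = cc j S (cc j T U) := pair_ext fun t => by
  simp only [mem_cc]
  grind

theorem cc_inter {i j} (h : i < j) :
    cc i (cc j S T) (cc j U V) = cc j (cc i S U) (cc i T V) := pair_ext fun t => by
  simp only [mem_cc]
  by_cases e : #t = i + 1
  · simp [e, h.ne]
  · by_cases e' : #t = j + 1
    · simp [e', h.ne']
    · simp [e, e']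
      grind

theorem push_bd (θ : Fin (m + 1) →o Fin (l + 1)) (h : IsCell S) (a k) :
    push θ (bd a k S) = bd a k (push θ S) := by
  obtain ⟨x, rfl⟩ := exists_tab h
  rw [← supp_sd, ← supp_push, P213.St2.push_d, supp_sd, supp_push]

theorem push_cc (θ : Fin (m + 1) →o Fin (l + 1)) (h : IsCell S) (h' : IsCell T) {k}
    (e : bd true k S = bd false k T) : push θ (cc k S T) = cc k (push θ S) (push θ T) := by
  obtain ⟨x, rfl⟩ := exists_tab h
  obtain ⟨y, rfl⟩ := exists_tab h'
  rw [← supp_cc k (sd_eq e), ← supp_push, P213.St2.push_comp θ k x y (sd_eq e), supp_cc,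
    supp_push, supp_push]
  rw [← P213.St2.push_d, ← P213.St2.push_d, sd_eq e]

theorem push_id (h : IsCell S) : push (OrderHom.id : Fin (m + 1) →o _) S = S := by
  obtain ⟨x, rfl⟩ := exists_tab h
  rw [← supp_push, P213.St2.push_id]

theorem push_push (θ : Fin (m + 1) →o Fin (l + 1)) (θ' : Fin (l + 1) →o Fin (r + 1))
    (h : IsCell S) : push (θ'.comp θ) S = push θ' (push θ S) := by
  obtain ⟨x, rfl⟩ := exists_tab h
  rw [← supp_push, P213.St2.push_push, supp_push, supp_push]

theorem Cell.ext {k} {x y : Cell m k} (h : x.S = y.S) : x = y := by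
  cases x
  cases y
  congr

end Vale.Agent.P213Z.G
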