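import Vale.Agent.P213Z.Main

/-! # Fibrations with aspherical fibres -/

namespace Vale.Agent.P213Z

open CategoryTheory Simplicial Opposite Topology Limits MonoidalCategory
open CartesianMonoidalCategory SSet.modelCategoryQuillen
open Vale.Agent.P246.T (Dl)
open Vale.Agent.P178.H924
open Vale.Agent.P213

variable {T E B F : TopCat.{0}}

instance kanPt : SSet.KanComplex (Sg (TopCat.of PUnit)) := by
  have : IsIso (terminal.from (Sg (TopCat.of PUnit))) :=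
    isIso_of_isTerminal (IsTerminal.isTerminalObj TopCat.toSSet _ TopCat.isTerminalPUnit)
      terminalIsTerminal _
  infer_instance

instance kanSg (T : TopCat.{0}) : SSet.KanComplex (Sg T) := kanComplex_of_kanFib (tl_pt T).fib

theorem hep₀ {A X K : SSet.{0}} (i : A ⟶ X) [Mono i] [SSet.KanComplex K] (f : X ⟶ K)
    (G : A ⊗ Δ[1] ⟶ K) (h : SSet.ι₀ ≫ G = i ≫ f) : ∃ L, SSet.ι₀ ≫ L = f ∧ i ▷ _ ≫ L = G := by
  obtain ⟨L, h1, h2, -⟩ := lift_cyl₀ i (kanFib_terminal K (terminal.from K)) f G (terminal.from _) h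
    (Subsingleton.elim _ _) (Subsingleton.elim _ _)
  exact ⟨L, h1, h2⟩

theorem hep₁ {A X K : SSet.{0}} (i : A ⟶ X) [Mono i] [SSet.KanComplex K] (f : X ⟶ K)
    (G : A ⊗ Δ[1] ⟶ K) (h : SSet.ι₁ ≫ G = i ≫ f) : ∃ L, SSet.ι₁ ≫ L = f ∧ i ▷ _ ≫ L = G := by
  obtain ⟨L, h1, h2, -⟩ := lift_cyl₁ i (kanFib_terminal K (terminal.from K)) f G (terminal.from _) h
    (Subsingleton.elim _ _) (Subsingleton.elim _ _)
  exact ⟨L, h1, h2⟩

theorem sx_ofStd {n : ℕ} (c : C(Dl (n + 1), E)) {m} (y : (Δ[n] : SSet.{0}).obj m) (u) :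
    sx ((ofStd c).app m y) u = c (am (opr y) u) := rfl

theorem htpy_const {n : ℕ} (g : Δ[n] ⟶ Sg F) (f₀ : F)
    (h : Joined (sx (g.app _ (topS n)) (vx 0)) f₀) : Htpy g (ofStd (.const _ f₀)) := by
  have hc : ContractibleSpace (Dl (n + 1)) := (convex_stdSimplex ℝ _).contractibleSpace ⟨_, (vx 0).2⟩
  obtain ⟨y, hy⟩ := id_nullhomotopic (Dl (n + 1))
  let c := sx (g.app _ (topS n))
  have h1 : c.Homotopic (.const _ f₀) := by
    refine ((ContinuousMap.Homotopic.refl c).comp hy).trans ?_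
    have : Nonempty (Dl (n + 1)) := ⟨y⟩
    have h3 : Joined (c y) f₀ :=
      Joined.trans ⟨(PathConnectedSpace.somePath y (vx 0)).map c.continuous⟩ h
    exact (ContinuousMap.homotopic_const_iff (Y := Dl (n + 1))).2 h3
  have h2 := (htpy_of_homotopic (T := TopCat.of (Dl (n + 1))) (f := TopCat.ofHom c)
    (g := TopCat.ofHom (.const _ f₀)) h1).precomp (ofStd (E := TopCat.of (Dl (n + 1))) (.id _))
  have e : g = ofStd (E := TopCat.of (Dl (n + 1))) (.id _) ≫ TopCat.toSSet.map (TopCat.ofHom c) := by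
    ext ⟨⟨m⟩⟩ y
    exact sx_inj fun u => sx_std g y u
  rw [← e] at h2
  exact h2

/-- all loops on simplices are null-homotopic -/
def Nul (F : TopCat.{0}) (f₀ : F) : Prop := ∀ (n : ℕ) (z : C(Dl (n + 1), F)),
  (∀ t, ¬ Inr t → z t = f₀) → ∃ H : C(Dl (n + 1) × unitInterval, F), (∀ t, H (t, 0) = z t) ∧
    (∀ t, H (t, 1) = f₀) ∧ ∀ t s, ¬ Inr t → H (t, s) = f₀

theorem inr_zero (u : Dl (0 + 1)) : Inr u := fun i hi => by
  have h := dl_sum u
  rw [Fin.sum_univ_succ, Fin.sum_univ_zero, add_zero, ← Fin.fin_one_eq_zero i, hi] at h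
  exact zero_ne_one h

theorem Nul.joined {f₀ : F} (h : Nul F f₀) (f : F) : Joined f f₀ := by
  obtain ⟨H, h0, h1, -⟩ := h 0 (.const _ f) fun t ht => absurd (inr_zero t) ht
  exact ⟨⟨H.curry (vx 0), h0 _, h1 _⟩⟩

/-- the cone parametrization of the simplex -/
def cone (n : ℕ) : C(Dl (n + 1) × unitInterval, Dl (n + 2)) where
  toFun q := ⟨Fin.cons q.2 fun i => (1 - q.2) * q.1 i, fun i => by
      refine Fin.cases q.2.2.1 (fun j => ?_) i
      exact mul_nonneg (sub_nonneg.2 q.2.2.2) (dl_nn _ _), by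
      rw [Fin.sum_univ_succ]
      simp only [Fin.cons_zero, Fin.cons_succ, ← Finset.mul_sum, dl_sum]
      ring⟩
  continuous_toFun := by
    refine Continuous.subtype_mk (continuous_pi fun i => ?_) _
    have ct : Continuous fun q : Dl (n + 1) × unitInterval => (q.2 : ℝ) :=
      continuous_subtype_val.comp continuous_snd
    refine Fin.cases ct (fun j => ?_) i
    exact (continuous_const.sub ct).mul
      (((continuous_apply j).comp continuous_subtype_val).comp continuous_fst)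

theorem cone_zero {n : ℕ} (q) : cone n q 0 = q.2 := rfl

theorem cone_succ {n : ℕ} (q) (i) : cone n q (Fin.succ i) = (1 - q.2) * q.1 i := rfl

theorem cone_surjective (n : ℕ) : Function.Surjective (cone n) := by
  intro w
  have hs := dl_sum w
  rw [Fin.sum_univ_succ] at hs
  have h0 := dl_nn w 0
  have h1 : w 0 ≤ 1 := stdSimplex.le_one _ _
  by_cases h : w 0 = 1
  · refine ⟨(vx 0, 1), Subtype.ext (funext fun i => Fin.cases h.symm (fun j => ?_) i)⟩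
    have h2 : ∑ i : Fin (n + 1), w i.succ = 0 := by linarith
    have h3 := (Finset.sum_eq_zero_iff_of_nonneg fun i _ => dl_nn w _).1 h2 j (Finset.mem_univ _)
    refine (cone_succ _ j).trans (Eq.trans ?_ h3.symm)
    change (1 - (1 : ℝ)) * _ = 0
    rw [sub_self, zero_mul]
  · have h2 : 0 < 1 - w 0 := sub_pos.2 (lt_of_le_of_ne h1 h)
    refine ⟨(⟨fun i => w i.succ / (1 - w 0), fun i => div_nonneg (dl_nn _ _) h2.le, ?_⟩,
      ⟨w 0, h0, h1⟩), Subtype.ext (funext fun i => Fin.cases rfl (fun j => ?_) i)⟩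
    · rw [← Finset.sum_div, div_eq_one_iff_eq h2.ne']
      linarith
    · exact mul_div_cancel₀ _ h2.ne'

theorem am_delta_zero {n : ℕ} (t : Dl (n + 1)) : am (SimplexCategory.δ 0) t = cone n (t, 0) :=
  dl_ext fun f => by
    rw [pr_am, pr, pr, Fin.sum_univ_succ (n := n + 1)]
    simp only [cone_zero, cone_succ]
    simp
    rfl

theorem exists_cone {n : ℕ} {f₀ : F} (H : C(Dl (n + 1) × unitInterval, F))
    (h1 : ∀ t, H (t, 1) = f₀) : ∃ c : C(Dl (n + 2), F), ∀ q, c (cone n q) = H q := by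
  have hq : IsQuotientMap (cone n) :=
    (cone n).continuous.isClosedMap.isQuotientMap (cone n).continuous (cone_surjective n)
  suffices hf : Function.FactorsThrough H (cone n) from
    ⟨hq.lift H hf, fun q => congrArg (fun g : C(_, F) => g q) (hq.lift_comp H hf)⟩
  rintro ⟨t, s⟩ ⟨t', s'⟩ e
  obtain rfl : s = s' := Subtype.ext (congrArg (fun w : Dl (n + 2) => w 0) e)
  by_cases hs : s = 1
  · rw [hs, h1, h1]
  · have h2 : (1 - (s : ℝ)) ≠ 0 := fun h => hs (Subtype.ext (by change (s : ℝ) = 1; linarith))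
    obtain rfl : t = t' := Subtype.ext (funext fun i =>
      mul_left_cancel₀ h2 (congrArg (fun w : Dl (n + 2) => w i.succ) e))
    rfl

/-- the boundary -/
abbrev Bd (n : ℕ) : SSet.{0} := (∂Δ[n] : SSet.Subcomplex.{0} _).toSSet

/-- the face opposite to the first vertex -/
def d0 (n : ℕ) : Bd (n + 1) _⦋n⦌ :=
  ⟨SSet.stdSimplex.objEquiv.symm (SimplexCategory.δ 0),
    (SSet.mem_boundary_iff_notMem_range _).2 ⟨0, by
      rintro ⟨j, hj⟩
      exact Fin.succ_ne_zero j hj⟩⟩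

theorem horn_le (n : ℕ) : (Λ[n + 1, 0] : SSet.Subcomplex.{0} _) ≤ ∂Δ[n + 1] := fun ⟨⟨_⟩⟩ x hx => by
  obtain ⟨j, -, h⟩ := (SSet.mem_horn_iff_notMem_range _ _).1 hx
  exact (SSet.mem_boundary_iff_notMem_range _).2 ⟨j, h⟩

theorem Nul.ext_aux {f₀ : F} (h : Nul F f₀) {n : ℕ} (a : Bd (n + 1) ⟶ Sg F)
    (ha : SSet.Subcomplex.homOfLE (horn_le n) ≫ a = Λ[n + 1, 0].ι ≫ ofStd (.const _ f₀)) :
    ∃ c, ∂Δ[n + 1].ι ≫ c = a := by
  have h2 : ∀ (m : ℕ) (y : Bd (n + 1) _⦋m⦌) (j : Fin (n + 1)), (∀ i, opr y.1 i ≠ j.succ) →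
      ∀ u, sx (a.app _ y) u = f₀ := fun m y j hj u =>
    congrArg (fun z => sx (z.app (op ⦋m⦌) ⟨y.1, (SSet.mem_horn_iff_notMem_range _ _).2
      ⟨j.succ, Fin.succ_ne_zero j, fun ⟨i, hi⟩ => hj i hi⟩⟩) u) ha
  have h3 : ∀ (m : ℕ) (δ : ⦋m⦌ ⟶ ⦋n⦌) (u), sx (a.app _ (d0 n)) (am δ u) =
      sx (a.app _ ((Bd (n + 1)).map δ.op (d0 n))) u := fun m δ u => by
    rw [NatTrans.naturality_apply a]
    rfl
  obtain ⟨H, e0, e1, e2⟩ := h n (sx (a.app _ (d0 n))) fun t ht => by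
    obtain ⟨k, δ, -, s, hs, rfl⟩ := exists_inr t
    rw [h3]
    rw [Inr] at ht
    push Not at ht
    obtain ⟨j, hj⟩ := ht
    refine h2 _ _ j (fun i hi => (am_ne_zero δ s j).2 ⟨i, ?_, hs i⟩ hj) _
    exact Fin.succ_injective _ hi
  obtain ⟨c, hc⟩ := exists_cone H e1
  refine ⟨ofStd c, ?_⟩
  ext ⟨⟨m⟩⟩ y
  refine sx_inj fun u => ?_
  change c (am (opr y.1) u) = sx (a.app _ y) u
  obtain ⟨j, hj⟩ := (SSet.mem_boundary_iff_notMem_range _).1 y.2
  induction j using Fin.cases with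
  | zero =>
    obtain ⟨θ, hθ⟩ := SimplexCategory.eq_comp_δ_of_not_surjective' (opr y.1) 0
      fun i hi => hj ⟨i, hi⟩
    have h4 : y = (Bd (n + 1)).map θ.op (d0 n) :=
      Subtype.ext (SSet.stdSimplex.objEquiv.injective hθ)
    rw [hθ, am_comp, am_delta_zero, hc, e0, h3, ← h4]
  | succ j =>
    rw [h2 m y j fun i hi => hj ⟨i, hi⟩]
    obtain ⟨⟨t, s⟩, e⟩ := cone_surjective n (am (opr y.1) u)
    have h5 : (1 - (s : ℝ)) * t j = 0 := by
      rw [← cone_succ (t, s), e]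
      by_contra h6
      obtain ⟨i, hi, -⟩ := (am_ne_zero _ _ _).1 h6
      exact hj ⟨i, hi⟩
    rw [← e, hc]
    rcases mul_eq_zero.1 h5 with h6 | h6
    · rw [show s = 1 from Subtype.ext (by change (s : ℝ) = 1; linarith), e1]
    · exact e2 t s fun ht => ht j h6

theorem Nul.ext {f₀ : F} (h : Nul F f₀) {n : ℕ} (a : Bd n ⟶ Sg F) : ∃ c, ∂Δ[n].ι ≫ c = a := by
  cases n with
  | zero => exact ⟨ofStd (.const _ f₀), SSet.boundary.hom_ext₀⟩
  | succ n =>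
    obtain ⟨g, hg⟩ := exists_extension_of_anodyne (SSet.anodyneExtensions.horn_ι (n := n + 1) 0)
      (SSet.Subcomplex.homOfLE (horn_le n) ≫ a)
    obtain ⟨G, g0, g1⟩ := htpy_const g f₀ (h.joined _)
    obtain ⟨L, l0, l1⟩ := hep₀ (SSet.Subcomplex.homOfLE (horn_le n)) a (Λ[n + 1, 0].ι ▷ _ ≫ G)
      (by rw [SSet.ι₀_comp_assoc, g0, hg])
    obtain ⟨c, hc⟩ := h.ext_aux (SSet.ι₁ ≫ L)
      (by rw [← SSet.ι₁_comp_assoc, l1, SSet.ι₁_comp_assoc, g1])
    obtain ⟨M, -, m2⟩ := hep₁ ∂Δ[n + 1].ι c L hc.symm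
    exact ⟨SSet.ι₀ ≫ M, by rw [← SSet.ι₀_comp_assoc, m2, l0]⟩

/-- the fibre -/
abbrev Fib (p : E ⟶ B) (y : B) : TopCat.{0} := TopCat.of {e : E // p.hom e = y}

theorem rlp_of_nul {p : E ⟶ B} (hp : TL p)
    (h : ∀ y : B, ∃ (y' : B) (f₀ : Fib p y'), Joined y y' ∧ Nul _ f₀) :
    I.rlp (TopCat.toSSet.map p) := by
  rintro _ _ _ ⟨n⟩
  refine ⟨fun {u v} sq => ?_⟩
  obtain ⟨y, f₀, hy, hN⟩ := h (sx (v.app _ (topS n)) (vx 0))
  obtain ⟨G, g0, g1⟩ := (htpy_const v y hy).symm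
  obtain ⟨L, l1, -, l3⟩ := lift_cyl₁ (initial.to (Bd n)) hp.fib u (fst _ _ ≫ initial.to _)
    (∂Δ[n].ι ▷ Δ[1] ≫ G) (Subsingleton.elim _ _) (by rw [SSet.ι₁_comp_assoc, g1, sq.w])
    (initial_tensor_hom_ext _ _)
  have hw : (SSet.ι₀ ≫ L) ≫ TopCat.toSSet.map p = ∂Δ[n].ι ≫ ofStd (.const _ y) := by
    rw [Category.assoc, l3, SSet.ι₀_comp_assoc, g0]
  have hw' : ∀ m z t, p.hom (sx ((SSet.ι₀ ≫ L).app m z) t) = y := fun m z t => by
    have h3 := congrArg (fun w => sx (w.app m z) t) hw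
    exact h3
  let u₁ : Bd n ⟶ Sg (Fib p y) := toSg (fun m z => ⟨fun t => ⟨sx ((SSet.ι₀ ≫ L).app m z) t,
      hw' m z t⟩, (sx _).continuous.subtype_mk _⟩)
    fun m m' φ z t => Subtype.ext (by
      change sx ((SSet.ι₀ ≫ L).app m' _) t = _
      rw [NatTrans.naturality_apply]
      rfl)
  obtain ⟨c, hc⟩ := hN.ext u₁
  let j : Fib p y ⟶ E := TopCat.ofHom ⟨Subtype.val, continuous_subtype_val⟩
  have e1 : u₁ ≫ TopCat.toSSet.map j = SSet.ι₀ ≫ L := by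
    ext m z
    exact sx_inj fun _ => rfl
  obtain ⟨M, -, m2, m3⟩ := lift_cyl₀ ∂Δ[n].ι hp.fib (c ≫ TopCat.toSSet.map j) L G
    (by rw [reassoc_of% hc, e1]) (by
      rw [g0]
      ext m z
      exact sx_inj fun t => (sx (c.app m z) t).2.symm) l3.symm
  refine ⟨⟨⟨SSet.ι₁ ≫ M, ?_, ?_⟩⟩⟩
  · rw [← SSet.ι₁_comp_assoc, m2, l1]
  · rw [Category.assoc, m3, g1]

/-- the extension property for a pair -/
def Ext (p : E ⟶ B) {D : Type} [TopologicalSpace D] (S : Set D) : Prop :=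
  ∀ (a : C(S, E)) (b : C(D, B)), (∀ s, p.hom (a s) = b s) →
    ∃ c : C(D, E), (∀ s : S, c s = a s) ∧ ∀ d, p.hom (c d) = b d

theorem Ext.of_homeo {p : E ⟶ B} {D D' : Type} [TopologicalSpace D] [TopologicalSpace D']
    {S : Set D} {S' : Set D'} (h : Ext p S') (e : D ≃ₜ D') (he : ∀ d, d ∈ S ↔ e d ∈ S') :
    Ext p S := by
  intro a b hab
  obtain ⟨c, h1, h2⟩ := h (a.comp ⟨fun s => ⟨e.symm s, (he _).2 (by simp)⟩, by fun_prop⟩)
    (b.comp ⟨e.symm, e.symm.continuous⟩) fun s => hab _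
  refine ⟨c.comp ⟨e, e.continuous⟩, fun s => (h1 ⟨e s, (he _).1 s.2⟩).trans ?_, fun d => ?_⟩
  · exact congrArg a (Subtype.ext (e.symm_apply_apply _))
  · exact (h2 _).trans (congrArg b (e.symm_apply_apply _))

theorem not_inr_bd {n : ℕ} {m} (y : (Bd n).obj m) (u) : ¬ Inr (am (opr y.1) u) := fun h => by
  obtain ⟨⟨m⟩⟩ := m
  obtain ⟨j, hj⟩ := (SSet.mem_boundary_iff_notMem_range _).1 y.2
  obtain ⟨i, hi, -⟩ := (am_ne_zero _ _ _).1 (h j)
  exact hj ⟨i, hi⟩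

theorem ext_of_rlp {p : E ⟶ B} (hp : I.rlp (TopCat.toSSet.map p)) (n : ℕ) :
    Ext p (D := Dl (n + 1)) {t | ¬ Inr t} := by
  intro a b hab
  have := hp _ (boundary_ι_mem_I n)
  let f : Bd n ⟶ Sg E := toSg (fun m y => a.comp ⟨fun u => ⟨am (opr y.1) u, not_inr_bd y u⟩,
    (am _).continuous.subtype_mk _⟩) fun _ _ φ y u =>
      congrArg a (Subtype.ext (am_comp φ.unop (opr y.1) u))
  have sq : CommSq f ∂Δ[n].ι (TopCat.toSSet.map p) (ofStd b) := ⟨by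
    ext m y
    exact sx_inj fun u => hab _⟩
  refine ⟨sx (sq.lift.app _ (topS n)), fun s => ?_, fun d => ?_⟩
  · obtain ⟨t, ht⟩ := s
    obtain ⟨k, δ, -, s, hs, rfl⟩ := exists_inr t
    let y : Bd n _⦋k⦌ := ⟨SSet.stdSimplex.objEquiv.symm δ, by
      have h1 : ¬ ∀ i, am δ s i ≠ 0 := ht
      push Not at h1
      obtain ⟨j, hj⟩ := h1
      exact (SSet.mem_boundary_iff_notMem_range _).2
        ⟨j, fun ⟨i, hi⟩ => (am_ne_zero δ s j).2 ⟨i, hi, hs i⟩ hj⟩⟩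
    have h2 := congrArg (fun z => sx (z.app _ y) s) sq.fac_left
    exact (sx_std sq.lift y.1 s).symm.trans h2
  · have h2 := congrArg (fun z => sx (z.app _ (topS n)) d) sq.fac_right
    exact h2.trans (congrArg b (am_id d))

end Vale.Agent.P213Z
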