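import Vale.Agent.P213Z.Top
import Vale.Agent.P213Z.Aff

/-! # The radial deformation of the top cells -/

namespace Vale.Agent.P213Z

open CategoryTheory Simplicial Opposite Topology
open Vale.Agent.P246.T (Dl)
open Vale.Agent.P178.H924
open Vale.Agent.P213

variable {n : ℕ}

/-- the least coordinate -/
noncomputable def mi (t : Dl (n + 1)) : ℝ := Finset.univ.inf' Finset.univ_nonempty fun i => t i

theorem continuous_mi : Continuous (mi (n := n)) :=
  Continuous.finset_inf'_apply _ fun i _ => (continuous_apply i).comp continuous_subtype_val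

theorem mi_le (t : Dl (n + 1)) (i) : mi t ≤ t i := Finset.inf'_le _ (Finset.mem_univ i)

theorem exists_mi (t : Dl (n + 1)) : ∃ i, mi t = t i := by
  obtain ⟨i, -, hi⟩ := Finset.exists_mem_eq_inf' Finset.univ_nonempty fun i => t i
  exact ⟨i, hi⟩

theorem mi_nn (t : Dl (n + 1)) : 0 ≤ mi t := by
  obtain ⟨i, hi⟩ := exists_mi t
  exact hi ▸ dl_nn t i

theorem inr_iff (t : Dl (n + 1)) : Inr t ↔ 0 < mi t := by
  constructor
  · intro h
    obtain ⟨i, hi⟩ := exists_mi t
    exact hi ▸ lt_of_le_of_ne (dl_nn t i) (h i).symm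
  · exact fun h i => (h.trans_le (mi_le t i)).ne'

theorem mi_eq_zero {t : Dl (n + 1)} (h : ¬ Inr t) : mi t = 0 :=
  le_antisymm (not_lt.1 fun h' => h ((inr_iff t).2 h')) (mi_nn t)

/-- the width of the collar -/
noncomputable def ep (n : ℕ) : ℝ := 1 / (2 * (n + 1))

theorem ep_pos : 0 < ep n := by unfold ep; positivity

theorem ep_mul : (n + 1 : ℝ) * ep n = 1 / 2 := by unfold ep; field_simp

/-- the amount that is removed -/
noncomputable def la (q : Dl (n + 1) × unitInterval) : ℝ := q.2 * min (mi q.1) (ep n)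

theorem la_nn (q : Dl (n + 1) × unitInterval) : 0 ≤ la q :=
  mul_nonneg q.2.2.1 (le_min (mi_nn _) ep_pos.le)

theorem la_le (q : Dl (n + 1) × unitInterval) : la q ≤ min (mi q.1) (ep n) :=
  mul_le_of_le_one_left (le_min (mi_nn _) ep_pos.le) q.2.2.2

theorem den_pos (q : Dl (n + 1) × unitInterval) : 0 < 1 - (n + 1 : ℝ) * la q := by
  have h1 : (n + 1 : ℝ) * la q ≤ (n + 1 : ℝ) * ep n :=
    mul_le_mul_of_nonneg_left ((la_le q).trans (min_le_right _ _)) (by positivity)
  rw [ep_mul] at h1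
  linarith

theorem continuous_la : Continuous (la (n := n)) :=
  (continuous_subtype_val.comp continuous_snd).mul
    ((continuous_mi.comp continuous_fst).min continuous_const)

/-- the radial deformation -/
noncomputable def rad : C(Dl (n + 1) × unitInterval, Dl (n + 1)) where
  toFun q := ⟨fun i => (q.1 i - la q) / (1 - (n + 1 : ℝ) * la q),
    fun i => div_nonneg (sub_nonneg.2 (((la_le q).trans (min_le_left _ _)).trans (mi_le _ i)))
      (den_pos q).le, by
    rw [← Finset.sum_div, Finset.sum_sub_distrib, dl_sum, div_eq_one_iff_eq (den_pos q).ne']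
    simp⟩
  continuous_toFun := by
    refine Continuous.subtype_mk (continuous_pi fun i => Continuous.div ?_ ?_
      fun q => (den_pos q).ne') _
    · exact (((continuous_apply i).comp continuous_subtype_val).comp continuous_fst).sub
        continuous_la
    · exact continuous_const.sub (continuous_const.mul continuous_la)

theorem rad_apply (q : Dl (n + 1) × unitInterval) (i) :
    rad q i = (q.1 i - la q) / (1 - (n + 1 : ℝ) * la q) := rfl

theorem rad_of_la {q : Dl (n + 1) × unitInterval} (h : la q = 0) : rad q = q.1 :=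
  Subtype.ext (funext fun i => (rad_apply q i).trans (by rw [h]; simp; rfl))

theorem rad_zero (t : Dl (n + 1)) : rad (t, 0) = t := rad_of_la (by simp [la])

theorem rad_bd {t : Dl (n + 1)} (h : ¬ Inr t) (s) : rad (t, s) = t :=
  rad_of_la (by simp [la, mi_eq_zero h, ep_pos.le])

theorem rad_one {t : Dl (n + 1)} (h : mi t < ep n) : ¬ Inr (rad (t, 1)) := by
  obtain ⟨i, hi⟩ := exists_mi t
  intro h'
  apply h' i
  have h2 : la (t, 1) = t i := by rw [la, min_eq_left h.le, hi]; simp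
  rw [rad_apply, h2]
  simp

theorem rad_lt {t : Dl (n + 1)} (h : mi t < ep n) (s) : mi (rad (t, s)) < ep n := by
  obtain ⟨i, hi⟩ := exists_mi t
  refine ((mi_le _ i).trans ?_).trans_lt h
  rw [rad_apply, div_le_iff₀ (den_pos _)]
  have h1 : (n + 1 : ℝ) * mi t ≤ (n + 1 : ℝ) * ep n := mul_le_mul_of_nonneg_left h.le (by positivity)
  rw [ep_mul] at h1
  have h2 := la_nn (t, s)
  change t i - _ ≤ _
  rw [← hi]
  nlinarith

variable {X A : SSet.{0}}

theorem top_eq {σ τ : X _⦋n⦌} {t u} (hτ : τ ∈ X.nonDegenerate n) (hu : Inr u)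
    (h : chr X σ t = chr X τ u) : σ = τ ∧ t = u := by
  obtain ⟨-, -, k, δ, hδ, t', s, hs, -, e1, e2, e3⟩ := nf_of_chr_eq h.symm (nf_self hτ hu)
  obtain rfl : k = n :=
    le_antisymm (SimplexCategory.len_le_of_mono δ) (SimplexCategory.len_le_of_epi s)
  obtain rfl := SimplexCategory.eq_id_of_mono δ
  obtain rfl := SimplexCategory.eq_id_of_epi s
  rw [am_id] at e1 e3
  exact ⟨by simpa using e2, e1.symm.trans e3⟩

variable (X n) in
/-- the union of the open top cells -/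
def VV : Set (Re X) := {p | ∃ σ u, σ ∈ X.nonDegenerate n ∧ Inr u ∧ chr X σ u = p}

variable (X n) in
/-- the collar -/
def UU : Set (Re X) := {p | ∀ σ u, σ ∈ X.nonDegenerate n → Inr u → chr X σ u = p → mi u < ep n}

theorem mem_UU_of {p : Re X} (h : p ∉ VV n X) : p ∈ UU n X :=
  fun σ u h1 h2 h3 => absurd ⟨σ, u, h1, h2, h3⟩ h

theorem notMem_VV {k : ℕ} (hk : k < n) (σ : X _⦋k⦌) (t) : chr X σ t ∉ VV n X := by
  rintro ⟨τ, u, hτ, hu, h⟩
  have := (nf_of_chr_eq h (nf_self hτ hu)).le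
  omega

theorem mem_VV_iff {σ : X _⦋n⦌} (hσ : σ ∈ X.nonDegenerate n) (t) : chr X σ t ∈ VV n X ↔ Inr t := by
  refine ⟨?_, fun h => ⟨σ, t, hσ, h, rfl⟩⟩
  rintro ⟨τ, u, hτ, hu, h⟩
  exact (top_eq hτ hu h.symm).2 ▸ hu

theorem mem_UU_iff {σ : X _⦋n⦌} (hσ : σ ∈ X.nonDegenerate n) (t) :
    chr X σ t ∈ UU n X ↔ mi t < ep n := by
  constructor
  · intro h
    by_cases ht : Inr t
    · exact h σ t hσ ht rfl
    · rw [mi_eq_zero ht]
      exact ep_pos
  · intro h τ u hτ hu e
    exact (top_eq hτ hu e.symm).2 ▸ h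

theorem nd_cases [X.HasDimensionLT (n + 1)] {P : ∀ k, X _⦋k⦌ → Prop}
    (h1 : ∀ k σ, k < n → P k σ) (h2 : ∀ σ, σ ∈ X.nonDegenerate n → P n σ) (k : ℕ) (σ : X _⦋k⦌)
    (hσ : σ ∈ X.nonDegenerate k) : P k σ := by
  obtain h | rfl := (Nat.lt_succ_iff.1 (X.dim_lt_of_nonDegenerate ⟨σ, hσ⟩ (n + 1))).lt_or_eq
  · exact h1 k σ h
  · exact h2 σ hσ

theorem isOpen_VV [X.HasDimensionLT (n + 1)] : IsOpen (VV n X) := by
  refine isOpen_nd (nd_cases (n := n) (fun k σ hk => ?_) fun σ hσ => ?_)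
  · rw [show chr X σ ⁻¹' VV n X = ∅ from Set.eq_empty_of_forall_notMem (notMem_VV hk σ)]
    exact isOpen_empty
  · rw [show chr X σ ⁻¹' VV n X = {t | 0 < mi t} from
      Set.ext fun t => (mem_VV_iff hσ t).trans (inr_iff t)]
    exact isOpen_lt continuous_const continuous_mi

theorem isOpen_UU [X.HasDimensionLT (n + 1)] : IsOpen (UU n X) := by
  refine isOpen_nd (nd_cases (n := n) (fun k σ hk => ?_) fun σ hσ => ?_)
  · rw [show chr X σ ⁻¹' UU n X = Set.univ from
      Set.eq_univ_of_forall fun t => mem_UU_of (notMem_VV hk σ t)]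
    exact isOpen_univ
  · rw [show chr X σ ⁻¹' UU n X = {t | mi t < ep n} from Set.ext fun t => mem_UU_iff hσ t]
    exact isOpen_lt continuous_mi continuous_const

theorem exists_rad [X.HasDimensionLT (n + 1)] : ∃ Φ : C(Re X × unitInterval, Re X),
    (∀ σ ∈ X.nonDegenerate n, ∀ t s, Φ (chr X σ t, s) = chr X σ (rad (t, s))) ∧
    ∀ p ∉ VV n X, ∀ s, Φ (p, s) = p := by
  classical
  have key : ∀ p : Re X, ∃ γ : C(unitInterval, Re X),
      (∀ σ ∈ X.nonDegenerate n, ∀ t, chr X σ t = p → ∀ s, γ s = chr X σ (rad (t, s))) ∧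
      (p ∉ VV n X → ∀ s, γ s = p) := by
    intro p
    by_cases hp : p ∈ VV n X
    · obtain ⟨τ, u, hτ, hu, rfl⟩ := hp
      refine ⟨((chr X τ).comp rad).curry u, fun σ _ t h s => ?_, fun h => ?_⟩
      · obtain ⟨rfl, rfl⟩ := top_eq hτ hu h
        rfl
      · exact absurd ⟨τ, u, hτ, hu, rfl⟩ h
    · refine ⟨.const _ p, fun σ hσ t h s => ?_, fun _ _ => rfl⟩
      subst h
      rw [rad_bd fun ht => hp ((mem_VV_iff hσ t).2 ht)]
      rfl
  choose γ h1 h2 using key
  have hγ : Continuous γ := by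
    refine continuous_nd (nd_cases (n := n) (fun k σ hk => ?_) fun σ hσ => ?_)
    · have : (fun t => γ (chr X σ t)) = ((chr X σ).comp ContinuousMap.fst).curry :=
        funext fun t => ContinuousMap.ext fun s => h2 _ (notMem_VV hk σ t) s
      rw [this]
      exact ContinuousMap.continuous _
    · have : (fun t => γ (chr X σ t)) = ((chr X σ).comp rad).curry :=
        funext fun t => ContinuousMap.ext fun s => h1 _ σ hσ t rfl s
      rw [this]
      exact ContinuousMap.continuous _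
  exact ⟨ContinuousMap.uncurry ⟨γ, hγ⟩, fun σ hσ t s => h1 _ σ hσ t rfl s, fun p hp s => h2 p hp s⟩

variable (n) in
/-- the image is the skeleton -/
def Sk (j : A ⟶ X) : Prop :=
  ∀ (k : ℕ) (σ : X _⦋k⦌), σ ∈ X.nonDegenerate k → ((∃ τ, j.app _ τ = σ) ↔ k < n)

theorem Sk.notMem {j : A ⟶ X} [Mono j] (hj : Sk n j) (a) : rm j a ∉ VV n X := by
  rintro ⟨σ, u, hσ, hu, h⟩
  exact lt_irrefl n ((hj n σ hσ).1 (mem_range_rm j hσ hu ⟨a, h.symm⟩))

theorem Sk.mem [X.HasDimensionLT (n + 1)] {j : A ⟶ X} (hj : Sk n j) {p} (hp : p ∉ VV n X) :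
    p ∈ Set.range (rm j) := by
  obtain ⟨k, σ, u, hσ, hu, rfl⟩ := exists_nd p
  obtain h | rfl := (Nat.lt_succ_iff.1 (X.dim_lt_of_nonDegenerate ⟨σ, hσ⟩ (n + 1))).lt_or_eq
  · obtain ⟨τ, rfl⟩ := (hj k σ hσ).2 h
    exact ⟨_, rm_chr j τ u⟩
  · exact absurd ⟨σ, u, hσ, hu, rfl⟩ hp

theorem Sk.whe [X.HasDimensionLT (n + 1)] {j : A ⟶ X} [Mono j] (hj : Sk n j) :
    whe (toSubU (SSet.toTop.map j) (UU n X) fun a => mem_UU_of (hj.notMem a)) := by
  obtain ⟨Φ, h1, h2⟩ := exists_rad (n := n) (X := X)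
  refine whe_toSubU _ (isEmbedding_rm j) _ _ Φ (fun p => ?_) (fun p hp => ?_) (fun p hp s => ?_)
    fun a => h2 _ (hj.notMem a) 1
  · by_cases h : p ∈ VV n X
    · obtain ⟨σ, u, hσ, -, rfl⟩ := h
      rw [h1 σ hσ, rad_zero]
    · exact h2 p h 0
  · refine hj.mem ?_
    by_cases h : p ∈ VV n X
    · obtain ⟨σ, u, hσ, -, rfl⟩ := h
      rw [h1 σ hσ, mem_VV_iff hσ]
      exact rad_one ((mem_UU_iff hσ u).1 hp)
    · rwa [h2 p h]
  · by_cases h : p ∈ VV n X
    · obtain ⟨σ, u, hσ, -, rfl⟩ := h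
      rw [h1 σ hσ, mem_UU_iff hσ]
      exact rad_lt ((mem_UU_iff hσ u).1 hp) s
    · rwa [h2 p h]

end Vale.Agent.P213Z
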