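import Vale.Agent.P213.Bdl.B13
import Vale.Agent.P178.H924.Nf

/-! # Singular simplicial sets: basic tools -/

namespace Vale.Agent.P213Z

open CategoryTheory Simplicial Opposite Topology MonoidalCategory Limits
open CartesianMonoidalCategory
open Vale.Agent.P246.T (Dl)
open Vale.Agent.P178.H924
open Vale.Agent.P213

/-- the singular simplicial set -/
noncomputable abbrev Sg (T : TopCat.{0}) : SSet.{0} := TopCat.toSSet.obj T

variable {T T' : TopCat.{0}}

/-- the continuous map of a singular simplex -/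
noncomputable def sx {n : SimplexCategoryᵒᵖ} (x : (Sg T).obj n) : C(Dl (n.unop.len + 1), T) :=
  TopCat.toSSetObjEquiv T n x

/-- the singular simplex of a continuous map -/
noncomputable def xs (n : SimplexCategoryᵒᵖ) (f : C(Dl (n.unop.len + 1), T)) : (Sg T).obj n :=
  (TopCat.toSSetObjEquiv T n).symm f

theorem sx_xs (n : SimplexCategoryᵒᵖ) (f : C(Dl (n.unop.len + 1), T)) : sx (xs n f) = f :=
  Equiv.apply_symm_apply _ _

theorem sx_inj {n : SimplexCategoryᵒᵖ} {x y : (Sg T).obj n} (h : ∀ t, sx x t = sx y t) : x = y :=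
  (TopCat.toSSetObjEquiv T n).injective (ContinuousMap.ext h)

/-- the affine map of an operator -/
noncomputable def ao {m n : SimplexCategoryᵒᵖ} (f : n ⟶ m) :
    C(Dl (m.unop.len + 1), Dl (n.unop.len + 1)) := am (m := m.unop.len) (n := n.unop.len) f.unop

theorem sx_map {m n : SimplexCategoryᵒᵖ} (f : n ⟶ m) (x : (Sg T).obj n) (t) :
    sx ((Sg T).map f x) t = sx x (ao f t) := rfl

theorem sx_app (g : T ⟶ T') {n : SimplexCategoryᵒᵖ} (x : (Sg T).obj n) (t) :
    sx ((TopCat.toSSet.map g).app n x) t = g.hom (sx x t) := rfl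

/-- maps to the singular simplicial set -/
noncomputable def toSg {X : SSet.{0}} (f : ∀ n, X.obj n → C(Dl (n.unop.len + 1), T))
    (nat : ∀ (n m : SimplexCategoryᵒᵖ) (g : n ⟶ m) (x : X.obj n) t,
      f m (X.map g x) t = f n x (ao g t)) : X ⟶ Sg T where
  app n := ↾fun x => xs n (f n x)
  naturality n m g := by
    ext x
    apply sx_inj
    intro t
    exact nat n m g x t

theorem sx_toSg {X : SSet.{0}} (f : ∀ n, X.obj n → C(Dl (n.unop.len + 1), T)) (nat)
    {n : SimplexCategoryᵒᵖ} (x : X.obj n) (t) : sx ((toSg f nat).app n x) t = f n x t := rfl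

/-- the subcomplex of simplices with a property -/
def Sub (P : ∀ n : ℕ, C(Dl (n + 1), T) → Prop)
    (hP : ∀ (m n : ℕ) (g : ⦋m⦌ ⟶ ⦋n⦌) x, P n x → P m (x.comp (am g))) : (Sg T).Subcomplex where
  obj _ := {x | P _ (sx x)}
  map g _ hx := hP _ _ g.unop _ hx

/-- simplices with image in a subset -/
def SubU (U : Set T) : (Sg T).Subcomplex :=
  Sub (fun _ x => ∀ t, x t ∈ U) fun _ _ _ _ hx _ => hx _

theorem mem_SubU {U : Set T} {n} {x : (Sg T).obj n} : x ∈ (SubU U).obj n ↔ ∀ t, sx x t ∈ U :=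
  Iff.rfl

/-- the unit -/
noncomputable abbrev eta (X : SSet.{0}) : X ⟶ Sg (SSet.toTop.obj X) := sSetTopAdj.unit.app X

theorem sx_eta {X : SSet.{0}} {n : ℕ} (x : X _⦋n⦌) (t) :
    sx ((eta X).app (op ⦋n⦌) x) t = chr X x t := rfl

theorem eta_nat {X Y : SSet.{0}} (f : X ⟶ Y) :
    f ≫ eta Y = eta X ≫ TopCat.toSSet.map (SSet.toTop.map f) := sSetTopAdj.unit.naturality f

/-- the time coordinate of a simplex of the interval -/
noncomputable def tm {n : SimplexCategoryᵒᵖ} (e : (Δ[1] : SSet.{0}).obj n) :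
    C(Dl (n.unop.len + 1), unitInterval) where
  toFun t := ⟨am (m := n.unop.len) (n := 1) (SSet.stdSimplex.objEquiv e) t 1,
    (am (m := n.unop.len) (n := 1) (SSet.stdSimplex.objEquiv e) t).2.1 1, stdSimplex.le_one _ _⟩
  continuous_toFun := by
    refine Continuous.subtype_mk ?_ _
    exact (continuous_apply 1).comp (continuous_subtype_val.comp (am _).continuous)

theorem tm_map {m n : SimplexCategoryᵒᵖ} (f : n ⟶ m) (e : (Δ[1] : SSet.{0}).obj n) (t) :
    tm ((Δ[1] : SSet.{0}).map f e) t = tm e (ao f t) := by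
  apply Subtype.ext
  exact congrArg (fun u : Dl 2 => u 1) (am_comp (l := m.unop.len) (m := n.unop.len) (n := 1)
    f.unop (SSet.stdSimplex.objEquiv e) t)

theorem tm_zero {X : SSet.{0}} {n : SimplexCategoryᵒᵖ} (x : X.obj n) (t) :
    tm ((SSet.ι₀ : X ⟶ _).app n x).2 t = 0 := by
  apply Subtype.ext
  change am (m := n.unop.len) (n := 1) _ t 1 = 0
  by_contra h
  obtain ⟨j, hj, -⟩ := (am_ne_zero _ t 1).1 h
  exact absurd (show (0 : Fin 2) = 1 from hj) (by decide)

theorem tm_one {X : SSet.{0}} {n : SimplexCategoryᵒᵖ} (x : X.obj n) (t) :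
    tm ((SSet.ι₁ : X ⟶ _).app n x).2 t = 1 := by
  apply Subtype.ext
  change am (m := n.unop.len) (n := 1) _ t 1 = 1
  rw [am_apply]
  refine (Finset.sum_congr (Finset.filter_true_of_mem (fun j _ => rfl)) fun _ _ => rfl).trans ?_
  exact t.2.2

/-- the simplicial homotopy of a homotopy -/
noncomputable def singH (φ : C(T × unitInterval, T')) : Sg T ⊗ Δ[1] ⟶ Sg T' :=
  toSg (fun _ p => φ.comp ((sx p.1).prodMk (tm p.2))) fun n m g x t => by
    change φ (sx ((Sg T).map g x.1) t, tm ((Δ[1] : SSet.{0}).map g x.2) t) = _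
    rw [tm_map]
    rfl

theorem sx_singH (φ : C(T × unitInterval, T')) {n} (p : (Sg T ⊗ Δ[1] : SSet.{0}).obj n) (t) :
    sx ((singH φ).app n p) t = φ (sx p.1 t, tm p.2 t) := rfl

/-- homotopy equivalences -/
def IsHE {A B : Type} [TopologicalSpace A] [TopologicalSpace B] (f : C(A, B)) : Prop :=
  ∃ g : C(B, A), (g.comp f).Homotopic (.id A) ∧ (f.comp g).Homotopic (.id B)

theorem htpy_of_homotopic {f g : T ⟶ T'} (h : f.hom.Homotopic g.hom) :
    Htpy (TopCat.toSSet.map f) (TopCat.toSSet.map g) := by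
  obtain ⟨H⟩ := h
  refine ⟨singH (H.toContinuousMap.comp ⟨Prod.swap, continuous_swap⟩), ?_, ?_⟩
  · ext n x
    apply sx_inj
    intro t
    change H (tm ((SSet.ι₀ : Sg T ⟶ _).app n x).2 t, sx x t) = f.hom (sx x t)
    rw [tm_zero, H.apply_zero]
  · ext n x
    apply sx_inj
    intro t
    change H (tm ((SSet.ι₁ : Sg T ⟶ _).app n x).2 t, sx x t) = g.hom (sx x t)
    rw [tm_one, H.apply_one]

theorem whe_sing_of_isHE (f : T ⟶ T') (h : IsHE f.hom) : whe (TopCat.toSSet.map f) := by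
  obtain ⟨g, h1, h2⟩ := h
  refine whe_of_eqvGen _ (TopCat.toSSet.map (TopCat.ofHom g)) ?_ ?_
  · rw [← Functor.map_comp, ← TopCat.toSSet.map_id]
    exact (htpy_of_homotopic h1).toE
  · rw [← Functor.map_comp, ← TopCat.toSSet.map_id]
    exact (htpy_of_homotopic h2).toE

/-- two out of six -/
theorem whe_of_six {W X Y Z : SSet.{0}} {f : W ⟶ X} {g : X ⟶ Y} {h : Y ⟶ Z}
    (h1 : whe (f ≫ g)) (h2 : whe (g ≫ h)) : whe f := by
  refine whe.cancel_post ?_ h1
  rw [P213.whe_iff]
  intro K _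
  refine ⟨fun k => ?_, fun a b hab => ?_⟩
  · obtain ⟨a, ha⟩ := h2.surj k
    exact ⟨h ≫ a, by simpa using ha⟩
  · exact h1.inj (by simpa using hab.precomp f)

/-- unions of chains -/
theorem whe_of_chains {X Y : SSet.{0}} (f : X ⟶ Y) (A : ℕ →o X.Subcomplex)
    (B : ℕ →o Y.Subcomplex) (hA : ⨆ n, A n = ⊤) (hB : ⨆ n, B n = ⊤)
    (g : ∀ n, (A n : SSet.{0}) ⟶ B n) (hg : ∀ n, g n ≫ (B n).ι = (A n).ι ≫ f)
    (hw : ∀ n, whe (g n)) : whe f := by
  let F : ℕ ⥤ SSet.{0} := A.monotone.functor ⋙ SSet.Subcomplex.toSSetFunctor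
  let cF : Cocone F := ⟨X, { app := fun d => (A d).ι }⟩
  have hcF : IsColimit cF :=
    IsColimit.ofIsoColimit (isColimitOfPreserves SSet.Subcomplex.toSSetFunctor
      (Preorder.colimitCoconeOfIsLUB A.monotone.functor (pt := ⊤)
        (by rw [← hA]; apply isLUB_iSup)).isColimit)
        (Cocone.ext (SSet.Subcomplex.topIso _))
  let G : ℕ ⥤ SSet.{0} := B.monotone.functor ⋙ SSet.Subcomplex.toSSetFunctor
  let cG : Cocone G := ⟨Y, { app := fun d => (B d).ι }⟩
  have hcG : IsColimit cG :=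
    IsColimit.ofIsoColimit (isColimitOfPreserves SSet.Subcomplex.toSSetFunctor
      (Preorder.colimitCoconeOfIsLUB B.monotone.functor (pt := ⊤)
        (by rw [← hB]; apply isLUB_iSup)).isColimit)
        (Cocone.ext (SSet.Subcomplex.topIso _))
  let τ : F ⟶ G :=
    { app := g
      naturality := fun i j u => by
        ext n x
        apply Subtype.ext
        have h1 := congrArg (fun z => z.app n ((F.map u).app n x)) (hg j)
        have h2 := congrArg (fun z => z.app n x) (hg i)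
        exact h1.trans h2.symm }
  exact whe_of_sequence τ
    (fun i j f => SSet.Subcomplex.mono_homOfLE (A.monotone (leOfHom f)))
    (fun i j f => SSet.Subcomplex.mono_homOfLE (B.monotone (leOfHom f))) hw hcF hcG f
    (fun j => (hg j).symm)

/-- lifting along an embedding -/
theorem lift_emb {A B D : Type} [TopologicalSpace A] [TopologicalSpace B] [TopologicalSpace D]
    {e : A → B} (he : IsEmbedding e) (x : C(D, B)) (hx : ∀ t, x t ∈ Set.range e) :
    ∃ y : C(D, A), ∀ t, e (y t) = x t := by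
  choose y hy using hx
  refine ⟨⟨y, he.isInducing.continuous_iff.2 ?_⟩, hy⟩
  have : e ∘ y = x := funext hy
  rw [this]
  exact x.continuous

/-- the map to the simplices in a subset -/
noncomputable def toSubU (j : T' ⟶ T) (U : Set T) (h : ∀ a, j.hom a ∈ U) :
    Sg T' ⟶ (SubU U : SSet.{0}) :=
  SSet.Subcomplex.lift (TopCat.toSSet.map j) (by
    rintro n _ ⟨x, rfl⟩ t
    exact h _)

theorem toSubU_ι (j : T' ⟶ T) (U : Set T) (h : ∀ a, j.hom a ∈ U) :
    toSubU j U h ≫ (SubU U).ι = TopCat.toSSet.map j := rfl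

/-- deformation of a subset into an embedded subspace -/
theorem whe_toSubU (j : T' ⟶ T) (hj : IsEmbedding j.hom) (U : Set T) (h : ∀ a, j.hom a ∈ U)
    (φ : C(T × unitInterval, T)) (h0 : ∀ p, φ (p, 0) = p)
    (h1 : ∀ p ∈ U, φ (p, 1) ∈ Set.range j.hom) (hU : ∀ p ∈ U, ∀ s, φ (p, s) ∈ U)
    (hA : ∀ a, φ (j.hom a, 1) = j.hom a) : whe (toSubU j U h) := by
  have key : ∀ (n) (x : (SubU U : SSet.{0}).obj n), ∃ y : C(Dl (n.unop.len + 1), T'),
      ∀ t, j.hom (y t) = φ (sx x.1 t, 1) := fun n x =>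
    lift_emb hj (φ.comp ((sx x.1).prodMk (.const _ 1))) fun t => h1 _ (x.2 t)
  choose y hy using key
  let r : (SubU U : SSet.{0}) ⟶ Sg T' := toSg y fun n m g x t => by
    apply hj.injective
    rw [hy, hy]
    rfl
  refine whe_of_eqvGen _ r ?_ ?_
  · have : toSubU j U h ≫ r = 𝟙 _ := by
      ext n x
      apply sx_inj
      intro t
      apply hj.injective
      exact (hy n _ t).trans (hA _)
    rw [this]
    exact HtpyE.refl _
  · refine HtpyE.symm (Htpy.toE ⟨SSet.Subcomplex.lift ((SubU U).ι ▷ Δ[1] ≫ singH φ) ?_, ?_, ?_⟩)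
    · rintro n _ ⟨x, rfl⟩ t
      exact hU _ (x.1.2 t) _
    · ext n x
      apply Subtype.ext
      apply sx_inj
      intro t
      change φ (sx x.1 t, tm ((SSet.ι₀ : (SubU U : SSet.{0}) ⟶ _).app n x).2 t) = sx x.1 t
      rw [tm_zero, h0]
    · ext n x
      apply Subtype.ext
      apply sx_inj
      intro t
      change φ (sx x.1 t, tm ((SSet.ι₁ : (SubU U : SSet.{0}) ⟶ _).app n x).2 t) = j.hom (y n x t)
      rw [tm_one, hy]

end Vale.Agent.P213Z
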