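import Vale.Agent.P213Z.DefsA
import Vale.Agent.P213.Bdl.B10
import Mathlib.Order.PiLex

/-! # Street's cells and Steiner's tables -/

open Finset

namespace Vale.Agent.P213Z.G

open Vale.Agent.P213.St2 (Ch IsTab Tab)

section

variable {n : ℕ}

/-- the parity of the position of a vertex -/
abbrev par (a : Bool) (t : Finset (Fin n)) (i : Fin n) : Prop := Even #{j ∈ t | j < i} ↔ a = true

/-- positive and negative parts of the boundary -/
def DD (a : Bool) (c : Finset (Fin n) → ℕ) (t : Finset (Fin n)) : ℕ :=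
  ∑ i ∈ tᶜ with par a t i, c (insert i t)

/-- the boundary -/
def bz (c : Finset (Fin n) → ℤ) (t : Finset (Fin n)) : ℤ :=
  ∑ i ∈ tᶜ, (-1) ^ #{j ∈ t | j < i} * c (insert i t)

theorem bz_eq (c : Finset (Fin n) → ℕ) (t) :
    bz (fun s => c s) t = DD true c t - DD false c t := by
  simp only [bz, DD, Nat.cast_sum, sum_filter, ← sum_sub_distrib]
  refine sum_congr rfl fun i _ => ?_
  by_cases h : Even #{j ∈ t | j < i}
  · simp [par, h, h.neg_one_pow]
  · simp [par, h, (Nat.not_even_iff_odd.1 h).neg_one_pow]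

theorem card_ins {t : Finset (Fin n)} {i : Fin n} (h : i ∉ t) (p : Fin n → Prop)
    [DecidablePred p] : #{j ∈ insert i t | p j} = #{j ∈ t | p j} + if p i then 1 else 0 := by
  rw [filter_insert]
  split_ifs
  · exact card_insert_of_notMem fun h2 => h (mem_filter.1 h2).1
  · rfl

theorem bz_bz (c : Finset (Fin n) → ℤ) (t) : bz (bz c) t = 0 := by
  let g : Fin n → Fin n → ℤ := fun i k => if k = i then 0 else
    (-1) ^ #{j ∈ t | j < i} * ((-1) ^ #{j ∈ insert i t | j < k} * c (insert k (insert i t)))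
  have h1 : bz (bz c) t = ∑ i ∈ tᶜ, ∑ k ∈ tᶜ, g i k := by
    refine sum_congr rfl fun i hi => ?_
    rw [bz, mul_sum, compl_insert, ← add_sum_erase _ _ hi]
    simp only [g, if_true, zero_add]
    exact sum_congr rfl fun k hk => (if_neg (ne_of_mem_erase hk)).symm
  have h2 : ∑ i ∈ tᶜ, ∑ k ∈ tᶜ, g i k = -∑ i ∈ tᶜ, ∑ k ∈ tᶜ, g i k := by
    conv_rhs => rw [sum_comm]
    simp only [← sum_neg_distrib]
    refine sum_congr rfl fun i hi => sum_congr rfl fun k hk => ?_
    by_cases h : k = i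
    · simp [g, h]
    · simp only [g, if_neg h, if_neg (Ne.symm h), card_ins (mem_compl.1 hi),
        card_ins (mem_compl.1 hk), Finset.insert_comm k i]
      rcases lt_or_gt_of_ne h with h3 | h3
      · rw [if_neg h3.not_gt, if_pos h3]
        ring
      · rw [if_pos h3, if_neg h3.not_gt]
        ring
  omega

/-- the rank of a face -/
def rk (t : Finset (Fin n)) : Lex (Fin n → ℕ) := toLex fun k => #{j ∈ t | j ≤ k} % 2

theorem card_le_eq {t : Finset (Fin n)} {i : Fin n} (h : i ∉ t) :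
    #{j ∈ t | j ≤ i} = #{j ∈ t | j < i} := congrArg card (filter_congr fun _ hj =>
  ⟨fun h2 => lt_of_le_of_ne h2 fun e => h (e ▸ hj), le_of_lt⟩)

theorem rk_pos {t : Finset (Fin n)} {i : Fin n} (h : i ∉ t) (hp : par true t i) :
    rk t < rk (insert i t) := by
  refine ⟨i, fun j hj => ?_, ?_⟩
  · change #{l ∈ t | l ≤ j} % 2 = #{l ∈ insert i t | l ≤ j} % 2
    rw [card_ins h, if_neg (not_le.2 hj), add_zero]
  · change #{l ∈ t | l ≤ i} % 2 < #{l ∈ insert i t | l ≤ i} % 2
    have := Nat.even_iff.1 (hp.2 rfl)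
    rw [card_ins h, if_pos le_rfl, card_le_eq h]
    omega

theorem rk_neg {t : Finset (Fin n)} {i : Fin n} (h : i ∉ t) (hp : par false t i) :
    rk (insert i t) < rk t := by
  refine ⟨i, fun j hj => ?_, ?_⟩
  · change #{l ∈ insert i t | l ≤ j} % 2 = #{l ∈ t | l ≤ j} % 2
    rw [card_ins h, if_neg (not_le.2 hj), add_zero]
  · change #{l ∈ insert i t | l ≤ i} % 2 < #{l ∈ t | l ≤ i} % 2
    have : ¬ #{j ∈ t | j < i} % 2 = 0 := fun e => Bool.false_ne_true (hp.1 (Nat.even_iff.2 e))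
    rw [card_ins h, if_pos le_rfl, card_le_eq h]
    omega

theorem tab_eq {x : Ch n} (h : IsTab x) (e t) :
    x false t + DD true (x e) t = x true t + DD false (x e) t := by
  have h1 : bz (fun s => x e s) t = _ := h.2.2 e t
  rw [bz_eq] at h1
  omega

theorem DD_empty (c : Finset (Fin n) → ℕ) : DD false c ∅ = 0 :=
  sum_eq_zero fun i hi => by simpa [par] using (mem_filter.1 hi).2

theorem le_DD {a : Bool} (c : Finset (Fin n) → ℕ) {t i} (h : i ∉ t) (hp : par a t i) :
    c (insert i t) ≤ DD a c t :=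
  single_le_sum (f := fun i => c (insert i t)) (fun _ _ => Nat.zero_le _)
    (mem_filter.2 ⟨mem_compl.2 h, hp⟩)

theorem two_le_DD {a : Bool} (c : Finset (Fin n) → ℕ) {t i k} (h : i ∉ t) (hp : par a t i)
    (h' : k ∉ t) (hp' : par a t k) (hik : i ≠ k) :
    c (insert i t) + c (insert k t) ≤ DD a c t := by
  rw [← sum_pair (f := fun i => c (insert i t)) hik]
  refine sum_le_sum_of_subset fun l hl => ?_
  rcases mem_insert.1 hl with rfl | hl
  · exact mem_filter.2 ⟨mem_compl.2 h, hp⟩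
  · rw [mem_singleton.1 hl]
    exact mem_filter.2 ⟨mem_compl.2 h', hp'⟩

theorem exists_pos {s : Finset (Fin n)} (h : s.Nonempty) :
    ∃ i t, i ∉ t ∧ par true t i ∧ s = insert i t := by
  refine ⟨s.min' h, s.erase _, notMem_erase _ _, ⟨fun _ => rfl, fun _ => ?_⟩,
    (insert_erase (s.min'_mem h)).symm⟩
  rw [filter_eq_empty_iff.2 fun j hj => not_lt.2 (s.min'_le j (mem_of_mem_erase hj))]
  exact Even.zero

theorem exists_neg {s : Finset (Fin n)} (h : 2 ≤ #s) :
    ∃ i t, i ∉ t ∧ par false t i ∧ s = insert i t := by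
  have h0 : s.Nonempty := card_pos.1 (by omega)
  have h1 : (s.erase (s.min' h0)).Nonempty := card_pos.1 (by
    rw [card_erase_of_mem (s.min'_mem h0)]
    omega)
  obtain ⟨h2, h3⟩ := mem_erase.1 (min'_mem _ h1)
  refine ⟨min' _ h1, s.erase _, notMem_erase _ _, ⟨fun h4 => ?_, fun h => by cases h⟩,
    (insert_erase h3).symm⟩
  have h5 : {j ∈ s.erase (min' _ h1) | j < min' _ h1} = {s.min' h0} := by
    ext j
    rw [mem_filter, mem_erase, mem_singleton]
    refine ⟨fun ⟨⟨_, h6⟩, h7⟩ => ?_, ?_⟩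
    · by_contra h8
      exact not_le.2 h7 (min'_le _ j (mem_erase.2 ⟨h8, h6⟩))
    · rintro rfl
      exact ⟨⟨h2.symm, s.min'_mem h0⟩, lt_of_le_of_ne (s.min'_le _ h3) h2.symm⟩
  rw [h5, card_singleton] at h4
  exact absurd h4 Nat.not_even_one

theorem step {c : ℕ} (ih : ∀ x : Ch n, IsTab x → ∀ e s, #s = c + 1 → x e s ≤ 1) {x : Ch n}
    (h : IsTab x) (e : Bool) {y : Finset (Fin n)} (hy : #y = c + 1) :
    x false y + DD true (x e) y ≤ 1 := by
  classical
  let z : Finset (Fin n) → ℕ := fun s => if rk y < rk s then x e s else 0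
  have z1 : ∀ t, rk y ≤ rk t → DD true z t = DD true (x e) t := fun t ht =>
    sum_congr rfl fun i hi => if_pos (ht.trans_lt
      (rk_pos (mem_compl.1 (mem_filter.1 hi).1) (mem_filter.1 hi).2))
  have z2 : ∀ t, rk t ≤ rk y → DD false z t = 0 := fun t ht =>
    sum_eq_zero fun i hi => if_neg (not_lt.2
      ((rk_neg (mem_compl.1 (mem_filter.1 hi).1) (mem_filter.1 hi).2).le.trans ht))
  have z3 : ∀ t, DD false z t ≤ DD false (x e) t := fun t => sum_le_sum fun i _ => by
    dsimp only [z]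
    split_ifs <;> omega
  have z4 : ∀ t, DD false z t ≤ x false t + DD true z t := fun t => by
    rcases le_total (rk y) (rk t) with ht | ht
    · have := tab_eq h e t
      have := z1 t ht
      have := z3 t
      omega
    · rw [z2 t ht]
      omega
  let L : Finset (Fin n) → ℕ := fun t => x false t + DD true z t - DD false z t
  have hL : ∀ t, (L t : ℤ) = x false t + bz (fun s => z s) t := fun t => by
    have := z4 t
    rw [bz_eq]
    dsimp only [L]
    omega
  have h1 := ih (fun b t => if #t ≤ c then x b t else if #t = c + 1 then L t else 0)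
    ⟨(if_pos (Nat.zero_le c)).trans h.1, (if_pos (Nat.zero_le c)).trans h.2.1, fun b t => ?_⟩
    false y hy
  · rw [if_neg (by omega), if_pos hy] at h1
    dsimp only [L] at h1
    rw [z1 y le_rfl, z2 y le_rfl] at h1
    exact h1
  · have hc : ∀ i ∈ tᶜ, #(insert i t) = #t + 1 := fun i hi =>
      card_insert_of_notMem (mem_compl.1 hi)
    dsimp only
    rcases lt_trichotomy #t c with ht | ht | ht
    · rw [if_pos ht.le, if_pos ht.le, ← h.2.2 b t]
      exact sum_congr rfl fun i hi => by rw [if_pos (by rw [hc i hi]; omega)]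
    · rw [if_pos ht.le, if_pos ht.le, ← h.2.2 false t, ← add_zero (∑ i ∈ tᶜ, _ * (x false _ : ℤ)),
        ← bz_bz (fun s => z s) t, bz, ← sum_add_distrib]
      exact sum_congr rfl fun i hi => by
        rw [if_neg (by rw [hc i hi]; omega), if_pos (by rw [hc i hi]; omega), hL, mul_add]
    · rw [if_neg ht.not_ge, if_neg ht.not_ge, sub_self]
      exact sum_eq_zero fun i hi => by
        rw [if_neg (by rw [hc i hi]; omega), if_neg (by rw [hc i hi]; omega), Nat.cast_zero,
          mul_zero]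

theorem tab_le (c : ℕ) : ∀ x : Ch n, IsTab x → ∀ e y, #y = c →
    x false y + DD true (x e) y ≤ 1 := by
  induction c with
  | zero =>
    intro x h e y hy
    obtain rfl := card_eq_zero.1 hy
    rw [tab_eq h, h.2.1, DD_empty]
  | succ c ih =>
    refine fun x h e y hy => step (fun x h e s hs => ?_) h e hy
    obtain ⟨i, t, h1, h2, rfl⟩ := exists_pos (card_pos.1 (show 0 < #s by omega))
    rw [card_insert_of_notMem h1] at hs
    have := ih x h e t (by omega)
    have := le_DD (x e) h1 h2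
    omega

theorem DD_le {x : Ch n} (h : IsTab x) (a e t) : DD a (x e) t ≤ 1 := by
  have := tab_le _ x h e t rfl
  have := tab_eq h e t
  cases a <;> omega

theorem coef_le {x : Ch n} (h : IsTab x) (e t) : x e t ≤ 1 := by
  have := tab_le _ x h e t rfl
  have := tab_eq h e t
  cases e <;> omega

theorem DD_ne {a : Bool} {c : Finset (Fin n) → ℕ} {t} :
    DD a c t ≠ 0 ↔ ∃ i, i ∉ t ∧ par a t i ∧ c (insert i t) ≠ 0 := by
  simp only [DD, ne_eq, sum_eq_zero_iff, mem_filter, mem_compl, not_forall, exists_prop, and_assoc]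

end

variable {m l : ℕ}

theorem mem_fc {a : Bool} {s t : Finset (Fin (m + 1))} :
    t ∈ fc a s ↔ t ≠ ∅ ∧ ∃ i, i ∉ t ∧ par a t i ∧ s = insert i t := by
  rw [fc, mem_erase, mem_image]
  refine and_congr_right fun _ => ⟨?_, ?_⟩
  · rintro ⟨i, hi, rfl⟩
    obtain ⟨h1, h2⟩ := mem_filter.1 hi
    refine ⟨i, notMem_erase _ _, ?_, (insert_erase h1).symm⟩
    rw [← insert_erase h1, card_ins (notMem_erase _ _), if_neg (lt_irrefl _)] at h2
    exact h2
  · rintro ⟨i, h1, h2, rfl⟩
    refine ⟨i, mem_filter.2 ⟨mem_insert_self _ _, ?_⟩, erase_insert h1⟩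
    rw [card_ins h1, if_neg (lt_irrefl _)]
    exact h2

/-- the support of a table -/
def supp (x : Ch (m + 1)) : Bool → Fs m := fun b => univ.filter fun t => t ≠ ∅ ∧ x b t ≠ 0

/-- the table of a cell -/
def ind (S : Bool → Fs m) : Ch (m + 1) :=
  fun b t => if t = ∅ then cond b 1 0 else if t ∈ S b then 1 else 0

theorem mem_supp {x : Ch (m + 1)} {b t} : t ∈ supp x b ↔ t ≠ ∅ ∧ x b t ≠ 0 := by simp [supp]

theorem mem_bU {x : Ch (m + 1)} {a e t} :
    t ∈ (supp x e).biUnion (fc a) ↔ t ≠ ∅ ∧ DD a (x e) t ≠ 0 := by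
  simp only [mem_biUnion, mem_fc, mem_supp, DD_ne]
  constructor
  · rintro ⟨s, ⟨-, h1⟩, h2, i, h3, h4, rfl⟩
    exact ⟨h2, i, h3, h4, h1⟩
  · rintro ⟨h2, i, h3, h4, h1⟩
    exact ⟨_, ⟨insert_ne_empty _ _, h1⟩, h2, i, h3, h4, rfl⟩

theorem isCell_supp {x : Ch (m + 1)} (h : IsTab x) : IsCell (supp x) := by
  intro e
  refine ⟨?_, ⟨fun h1 => (mem_supp.1 h1).1 rfl, fun s hs s' hs' hne => ⟨fun h1 h2 => ?_,
    fun a => disjoint_left.2 fun t h1 h2 => ?_⟩⟩, ?_, ?_⟩
  · have h1 := tab_eq h e ∅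
    rw [h.1, h.2.1, DD_empty] at h1
    obtain ⟨i, -, -, h2⟩ := DD_ne.1 (show DD true (x e) ∅ ≠ 0 by omega)
    exact ⟨_, mem_supp.2 ⟨insert_ne_empty _ _, h2⟩⟩
  · obtain ⟨i, rfl⟩ := card_eq_one.1 h1
    obtain ⟨k, rfl⟩ := card_eq_one.1 h2
    have h3 : x e {i} + x e {k} ≤ _ := two_le_DD (a := true) (x e) (notMem_empty i) (by simp [par])
      (notMem_empty k) (by simp [par]) fun e => hne (e ▸ rfl)
    have := DD_le h true e ∅
    have := (mem_supp.1 hs).2
    have := (mem_supp.1 hs').2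
    omega
  · obtain ⟨-, i, h3, h4, rfl⟩ := mem_fc.1 h1
    obtain ⟨-, k, h5, h6, rfl⟩ := mem_fc.1 h2
    have := two_le_DD (x e) h3 h4 h5 h6 fun e => hne (e ▸ rfl)
    have := DD_le h a e t
    have := (mem_supp.1 hs).2
    have := (mem_supp.1 hs').2
    omega
  all_goals
    ext t
    have := tab_le _ x h e t rfl
    have := tab_eq h e t
    simp only [mem_sdiff, mem_union, mem_bU, mem_supp]
    by_cases ht : t = ∅
    · simp [ht]
    · simp only [ne_eq, ht, not_false_eq_true, true_and]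
      omega

theorem ind_supp {x : Ch (m + 1)} (h : IsTab x) : ind (supp x) = x := by
  funext b t
  have := coef_le h b t
  rw [ind]
  split_ifs with h1 h2
  · subst h1
    cases b
    · exact h.1.symm
    · exact h.2.1.symm
  · have := (mem_supp.1 h2).2
    omega
  · by_contra h3
    exact h2 (mem_supp.2 ⟨h1, Ne.symm h3⟩)

theorem supp_ind {S : Bool → Fs m} (h : IsCell S) : supp (ind S) = S := by
  funext b
  ext t
  rw [mem_supp, ind]
  by_cases ht : t = ∅
  · simp [ht, (h b).2.1.1]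
  · simp [ht]

theorem down {S : Bool → Fs m} (h : IsCell S) (e : Bool) (c : ℕ) (hs : ∃ s ∈ S e, #s = c + 2) :
    ∃ s ∈ S e, #s = c + 1 := by
  have hne : ({s ∈ S e | #s = c + 2} : Fs m).Nonempty := hs.imp fun s h => mem_filter.2 h
  cases e
  · obtain ⟨s, h1, h2⟩ := exists_max_image _ rk hne
    obtain ⟨h1, h3⟩ := mem_filter.1 h1
    obtain ⟨i, t, h4, h5, rfl⟩ := exists_neg (show 2 ≤ #s by omega)
    rw [card_insert_of_notMem h4] at h3
    have h6 : t ≠ ∅ := by
      rintro rfl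
      simp at h3
    refine ⟨t, ?_, by omega⟩
    rw [(h false).2.2.1, mem_sdiff, mem_union, mem_biUnion, mem_biUnion]
    refine ⟨Or.inr ⟨_, h1, mem_fc.2 ⟨h6, i, h4, h5, rfl⟩⟩, fun ⟨s, h7, h8⟩ => ?_⟩
    obtain ⟨-, k, h9, h10, rfl⟩ := mem_fc.1 h8
    exact not_lt.2 (h2 _ (mem_filter.2 ⟨h7, by rw [card_insert_of_notMem h9, h3]⟩))
      ((rk_neg h4 h5).trans (rk_pos h9 h10))
  · obtain ⟨s, h1, h2⟩ := exists_min_image _ rk hne
    obtain ⟨h1, h3⟩ := mem_filter.1 h1
    obtain ⟨i, t, h4, h5, rfl⟩ := exists_pos (card_pos.1 (show 0 < #s by omega))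
    rw [card_insert_of_notMem h4] at h3
    have h6 : t ≠ ∅ := by
      rintro rfl
      simp at h3
    refine ⟨t, ?_, by omega⟩
    rw [(h true).2.2.2, mem_sdiff, mem_union, mem_biUnion, mem_biUnion]
    refine ⟨Or.inr ⟨_, h1, mem_fc.2 ⟨h6, i, h4, h5, rfl⟩⟩, fun ⟨s, h7, h8⟩ => ?_⟩
    obtain ⟨-, k, h9, h10, rfl⟩ := mem_fc.1 h8
    exact not_lt.2 (h2 _ (mem_filter.2 ⟨h7, by rw [card_insert_of_notMem h9, h3]⟩))
      ((rk_neg h9 h10).trans (rk_pos h4 h5))

theorem vertex {S : Bool → Fs m} (h : IsCell S) (e : Bool) : ∃ s ∈ S e, #s = 1 := by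
  have key : ∀ c, (∃ s ∈ S e, #s = c + 1) → ∃ s ∈ S e, #s = 1 := fun c => by
    induction c with
    | zero => exact id
    | succ c ih => exact fun hs => ih (down h e c hs)
  obtain ⟨s, hs⟩ := (h e).1
  have : 0 < #s := card_pos.2 (nonempty_iff_ne_empty.2 fun e' => (h e).2.1.1 (e' ▸ hs))
  exact key (#s - 1) ⟨s, hs, by omega⟩

theorem DD_ind {S : Bool → Fs m} (h : IsCell S) (a e t) : DD a (ind S e) t ≤ 1 := by
  have h1 : DD a (ind S e) t = #{i ∈ {i ∈ tᶜ | par a t i} | insert i t ∈ S e} := by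
    rw [DD, card_filter]
    exact sum_congr rfl fun i _ => if_neg (insert_ne_empty _ _)
  rw [h1, card_le_one]
  intro i hi k hk
  simp only [mem_filter, mem_compl] at hi hk
  by_contra hne
  have h2 : insert i t ≠ insert k t := fun e' => by
    rcases mem_insert.1 (e' ▸ mem_insert_self i t) with h3 | h3
    · exact hne h3
    · exact hi.1.1 h3
  obtain ⟨h3, h4⟩ := (h e).2.1.2 _ hi.2 _ hk.2 h2
  by_cases ht : t = ∅
  · subst ht
    exact h3 (by simp) (by simp)
  · exact disjoint_left.1 (h4 a) (mem_fc.2 ⟨ht, i, hi.1.1, hi.1.2, rfl⟩)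
      (mem_fc.2 ⟨ht, k, hk.1.1, hk.1.2, rfl⟩)

theorem isTab_ind {S : Bool → Fs m} (h : IsCell S) : IsTab (ind S) := by
  refine ⟨if_pos rfl, if_pos rfl, fun e t => (bz_eq _ t).trans ?_⟩
  have h1 := DD_ind h true e t
  have h2 := DD_ind h false e t
  by_cases ht : t = ∅
  · subst ht
    obtain ⟨s, hs, h3⟩ := vertex h e
    obtain ⟨i, rfl⟩ := card_eq_one.1 h3
    have h4 : ind S e {i} ≤ _ := le_DD (a := true) (ind S e) (notMem_empty i) (by simp [par])
    rw [ind, if_neg (singleton_ne_empty i), if_pos hs] at h4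
    rw [DD_empty, le_antisymm h1 h4]
    simp [ind]
  · have h3 : ∀ a, t ∈ (S e).biUnion (fc a) ↔ DD a (ind S e) t ≠ 0 := fun a => by
      conv_lhs => rw [← supp_ind h, mem_bU]
      exact and_iff_right ht
    have h4 := congrArg (t ∈ ·) (h e).2.2.1
    have h5 := congrArg (t ∈ ·) (h e).2.2.2
    simp only [mem_sdiff, mem_union, h3, eq_iff_iff] at h4 h5
    simp only [ind, if_neg ht]
    by_cases h6 : t ∈ S false <;> by_cases h7 : t ∈ S true <;>
      simp only [h6, h7, true_or, false_or, true_and, true_iff, false_iff, if_true, if_false]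
        at h4 h5 ⊢ <;> omega

theorem mem_bd {a k} {S : Bool → Fs m} {b t} :
    t ∈ bd a k S b ↔ t ∈ S b ∧ #t ≤ k ∨ t ∈ S a ∧ #t = k + 1 := by simp [bd]

theorem supp_sd (a k) (x : Ch (m + 1)) : supp (x.sd a k) = bd a k (supp x) := by
  funext b
  ext t
  simp only [mem_bd, mem_supp, P213.St2.Ch.sd]
  split_ifs with h1 h2
  · simp [h1, show #t ≠ k + 1 by omega]
  · simp [h2]
  · simp [h1, h2]

theorem supp_cc (k) {x y : Ch (m + 1)} (h : x.sd true k = y.sd false k) :
    supp (x.cc k y) = cc k (supp x) (supp y) := by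
  funext b
  ext t
  have h1 := congrFun (congrFun h b) t
  simp only [P213.St2.Ch.sd] at h1
  cases b <;> simp only [cc, cond, mem_union, mem_filter, mem_supp, P213.St2.Ch.sd,
    P213.St2.Ch.cc] <;> by_cases ht : t = ∅ <;> simp only [ne_eq, ht, not_true, not_false_eq_true,
      false_and, true_and, or_self] <;> split_ifs at h1 ⊢ <;> omega

theorem supp_push (θ : Fin (m + 1) → Fin (l + 1)) (x : Ch (m + 1)) :
    supp (x.push θ) = push θ (supp x) := by
  funext b
  ext t
  simp only [push, mem_image, mem_filter, mem_supp, P213.St2.Ch.push, ne_eq, sum_eq_zero_iff,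
    mem_univ, true_and, not_forall]
  constructor
  · rintro ⟨h1, s, ⟨rfl, h2⟩, h3⟩
    exact ⟨s, ⟨⟨fun e => h1 (by simp [e]), h3⟩, h2.symm⟩, rfl⟩
  · rintro ⟨s, ⟨⟨h1, h3⟩, h2⟩, rfl⟩
    exact ⟨by simpa using h1, s, ⟨rfl, h2.symm⟩, h3⟩

theorem supp_inj {x y : Tab (m + 1)} (h : supp x.ch = supp y.ch) : x = y :=
  P213.St2.Tab.ext (by rw [← ind_supp x.tb, h, ind_supp y.tb])

theorem exists_tab {S : Bool → Fs m} (h : IsCell S) : ∃ x : Tab (m + 1), supp x.ch = S :=
  ⟨⟨_, isTab_ind h⟩, supp_ind h⟩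

theorem sd_eq {k} {x y : Tab (m + 1)} (h : bd true k (supp x.ch) = bd false k (supp y.ch)) :
    x.ch.sd true k = y.ch.sd false k :=
  congrArg Tab.ch (supp_inj (x := ⟨_, P213.St2.isTab_d true k x⟩)
    (y := ⟨_, P213.St2.isTab_d false k y⟩) (by rw [supp_sd, supp_sd, h]))

theorem isCell_bd (a k) {S : Bool → Fs m} (h : IsCell S) : IsCell (bd a k S) := by
  obtain ⟨x, rfl⟩ := exists_tab h
  rw [← supp_sd]
  exact isCell_supp (P213.St2.isTab_d a k x)

theorem isCell_cc (k) {S T : Bool → Fs m} (h : IsCell S) (h' : IsCell T)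
    (e : bd true k S = bd false k T) : IsCell (cc k S T) := by
  obtain ⟨x, rfl⟩ := exists_tab h
  obtain ⟨y, rfl⟩ := exists_tab h'
  rw [← supp_cc k (sd_eq e)]
  exact isCell_supp (P213.St2.isTab_comp k x y (P213.St2.isTab_d _ _ _) (P213.St2.isTab_d _ _ _)
    (P213.St2.Tab.ext (sd_eq e)))

theorem isCell_push (θ : Fin (m + 1) →o Fin (l + 1)) {S : Bool → Fs m} (h : IsCell S) :
    IsCell (push θ S) := by
  obtain ⟨x, rfl⟩ := exists_tab h
  rw [← supp_push]
  exact isCell_supp (P213.St2.isTab_push θ x)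

end Vale.Agent.P213Z.G
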