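import Vale.Agent.P213Z.Sing

/-! # Topology of the realization: embeddings and compactness -/

namespace Vale.Agent.P213Z

open CategoryTheory Simplicial Opposite Topology
open Vale.Agent.P246.T (Dl)
open Vale.Agent.P178.H924

variable {X Y : SSet.{0}}

/-- the induced map -/
noncomputable def rm (f : X ⟶ Y) : C(Re X, Re Y) := (SSet.toTop.map f).hom

theorem rm_chr (f : X ⟶ Y) {n : ℕ} (x : X _⦋n⦌) (t) :
    rm f (chr X x t) = chr Y (f.app _ x) t :=
  (congrArg (fun z => sx (z.app (op ⦋n⦌) x) t) (eta_nat f)).symm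

theorem rm_comp {Z : SSet.{0}} (f : X ⟶ Y) (g : Y ⟶ Z) (p) : rm (f ≫ g) p = rm g (rm f p) := by
  rw [rm, Functor.map_comp]
  rfl

theorem chr_am {m n : ℕ} (g : ⦋m⦌ ⟶ ⦋n⦌) (x : X _⦋n⦌) (t) :
    chr X (X.map g.op x) t = chr X x (am g t) := by
  rw [chr_map]
  rfl

theorem exists_nd (p : Re X) : ∃ (m : ℕ) (σ : X _⦋m⦌) (u : Dl (m + 1)),
    σ ∈ X.nonDegenerate m ∧ Inr u ∧ chr X σ u = p := by
  obtain ⟨n, x, t, rfl⟩ := exists_chr p
  obtain ⟨m, σ, u, h⟩ := exists_nf x t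
  exact ⟨m, σ, u, h.1, h.2.1, (chr_nf h).symm⟩

theorem isOpen_nd {U : Set (Re X)}
    (h : ∀ (n : ℕ) (σ : X _⦋n⦌), σ ∈ X.nonDegenerate n → IsOpen (chr X σ ⁻¹' U)) : IsOpen U := by
  rw [isOpen_iff]
  intro n x
  obtain ⟨m, s, -, ⟨σ, hσ⟩, rfl⟩ := X.exists_nonDegenerate x
  rw [chr_map]
  exact (h m σ hσ).preimage (am s).continuous

theorem continuous_nd {Z : Type} [TopologicalSpace Z] {g : Re X → Z}
    (h : ∀ (n : ℕ) (σ : X _⦋n⦌), σ ∈ X.nonDegenerate n → Continuous fun t => g (chr X σ t)) :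
    Continuous g :=
  ⟨fun _ hU => isOpen_nd fun n σ hσ => hU.preimage (h n σ hσ)⟩

theorem app_inj (f : X ⟶ Y) [Mono f] (n) : Function.Injective (f.app n) :=
  (mono_iff_injective _).1 ((NatTrans.mono_iff_mono_app f).1 inferInstance n)

theorem rm_injective (f : X ⟶ Y) [Mono f] : Function.Injective (rm f) := by
  intro p q h
  obtain ⟨m, σ, u, hσ, hu, rfl⟩ := exists_nd p
  obtain ⟨m', σ', u', hσ', hu', rfl⟩ := exists_nd q
  rw [rm_chr, rm_chr] at h
  have h2 := chr_inj ((SSet.nonDegenerate_iff_of_mono f σ).2 hσ) hu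
    ((SSet.nonDegenerate_iff_of_mono f σ').2 hσ') hu' h
  obtain rfl : m = m' := congrArg Sigma.fst h2
  have h3 := eq_of_heq (Sigma.mk.inj h2).2
  rw [app_inj f _ (congrArg Prod.fst h3), show u = u' from congrArg Prod.snd h3]

theorem mem_range_rm (f : X ⟶ Y) [Mono f] {m : ℕ} {σ : Y _⦋m⦌} (hσ : σ ∈ Y.nonDegenerate m)
    {u : Dl (m + 1)} (hu : Inr u) (h : chr Y σ u ∈ Set.range (rm f)) :
    ∃ τ, f.app _ τ = σ := by
  obtain ⟨q, h⟩ := h
  obtain ⟨m', σ', u', hσ', hu', rfl⟩ := exists_nd q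
  rw [rm_chr] at h
  have h2 := chr_inj ((SSet.nonDegenerate_iff_of_mono f σ').2 hσ') hu' hσ hu h
  obtain rfl : m' = m := congrArg Sigma.fst h2
  exact ⟨σ', congrArg Prod.fst (eq_of_heq (Sigma.mk.inj h2).2)⟩

theorem isClosedMap_rm (f : X ⟶ Y) [Mono f] : IsClosedMap (rm f) := by
  intro C hC
  rw [isClosed_iff]
  intro n y
  have key : chr Y y ⁻¹' (rm f '' C) = ⋃ (j : Fin (n + 1)) (δ : ⦋(j : ℕ)⦌ ⟶ ⦋n⦌),
      am δ '' {t | ∃ x, f.app _ x = Y.map δ.op y ∧ chr X x t ∈ C} := by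
    ext t
    simp only [Set.mem_iUnion]
    constructor
    · rintro ⟨c, hc, ht⟩
      obtain ⟨k, σ, u, hN⟩ := exists_nf y t
      have h1 := chr_nf hN
      obtain ⟨hσ, hu, j, δ, hδ, t', s, hs, ht', rfl, e2, rfl⟩ := hN
      obtain ⟨τ, rfl⟩ := mem_range_rm f hσ hu ⟨c, ht.trans h1⟩
      refine ⟨⟨j, Nat.lt_succ_of_le (SimplexCategory.len_le_of_mono δ)⟩, δ, t',
        ⟨X.map s.op τ, ?_, ?_⟩, rfl⟩
      · rw [NatTrans.naturality_apply f]
        exact e2.symm
      · have h2 : chr X (X.map s.op τ) t' = c := by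
          apply rm_injective f
          rw [chr_am, rm_chr, ht, h1]
        exact h2 ▸ hc
    · rintro ⟨j, δ, t', ⟨x, hx, hc⟩, rfl⟩
      refine ⟨_, hc, ?_⟩
      rw [rm_chr, hx, chr_am]
  rw [key]
  refine isClosed_iUnion_of_finite fun j => isClosed_iUnion_of_finite fun δ => ?_
  refine (IsCompact.image (IsClosed.isCompact ?_) (am δ).continuous).isClosed
  by_cases h : ∃ x, f.app _ x = Y.map δ.op y
  · obtain ⟨x, hx⟩ := h
    have : {t | ∃ x, f.app _ x = Y.map δ.op y ∧ chr X x t ∈ C} = chr X x ⁻¹' C := by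
      ext t
      constructor
      · rintro ⟨x', hx', h⟩
        rwa [app_inj f _ (hx'.trans hx.symm)] at h
      · exact fun h => ⟨x, hx, h⟩
    rw [this]
    exact hC.preimage (chr X x).continuous
  · have : {t | ∃ x, f.app _ x = Y.map δ.op y ∧ chr X x t ∈ C} = ∅ :=
      Set.eq_empty_of_forall_notMem fun t ⟨x, hx, _⟩ => h ⟨x, hx⟩
    rw [this]
    exact isClosed_empty

theorem isEmbedding_rm (f : X ⟶ Y) [Mono f] : IsEmbedding (rm f) :=
  (IsClosedEmbedding.of_continuous_injective_isClosedMap (rm f).continuous (rm_injective f)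
    (isClosedMap_rm f)).isEmbedding

theorem isClosed_point (p : Re X) : IsClosed ({p} : Set (Re X)) := by
  obtain ⟨n₀, x₀, t₀, rfl⟩ := exists_chr p
  obtain ⟨m, σ, u, hN⟩ := exists_nf x₀ t₀
  rw [chr_nf hN]
  rw [isClosed_iff]
  intro n x
  have key : chr X x ⁻¹' {chr X σ u} = ⋃ (j : Fin (n + 1)) (δ : ⦋(j : ℕ)⦌ ⟶ ⦋n⦌)
      (s : ⦋(j : ℕ)⦌ ⟶ ⦋m⦌) (_ : X.map δ.op x = X.map s.op σ), am δ '' (am s ⁻¹' {u}) := by
    ext t
    simp only [Set.mem_iUnion]
    constructor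
    · intro ht
      have h1 : chr X σ u = chr X x t := ht.symm
      obtain ⟨-, -, j, δ, hδ, t', s, hs, -, e1, e2, e3⟩ := nf_of_chr_eq h1 (nf_self hN.1 hN.2.1)
      exact ⟨⟨j, Nat.lt_succ_of_le (SimplexCategory.len_le_of_mono δ)⟩, δ, s, e2, t', e3, e1⟩
    · rintro ⟨j, δ, s, e2, t', e3, rfl⟩
      have e3' : am s t' = u := e3
      change chr X x (am δ t') = chr X σ u
      rw [← chr_am, e2, chr_am, e3']
  rw [key]
  refine isClosed_iUnion_of_finite fun j => ?_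
  refine isClosed_iUnion_of_finite fun δ => ?_
  refine isClosed_iUnion_of_finite fun s => ?_
  refine isClosed_iUnion_of_finite fun _ => ?_
  have h1 : IsClosed (am s ⁻¹' {u}) := isClosed_singleton.preimage (am s).continuous
  exact (h1.isCompact.image (am δ).continuous).isClosed

/-- the image of the skeleton -/
def Bs (X : SSet.{0}) (n : ℕ) : Set (Re X) := Set.range (rm (X.skeleton n).ι)

theorem chr_mem {n k : ℕ} (h : k < n) (x : X _⦋k⦌) (t : Dl (k + 1)) : chr X x t ∈ Bs X n :=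
  ⟨chr _ (show (X.skeleton n : SSet.{0}) _⦋k⦌ from ⟨x, X.mem_skeleton x h⟩) t, rm_chr _ _ _⟩

theorem Bs_mono {m n : ℕ} (h : m ≤ n) : Bs X m ⊆ Bs X n := by
  rintro _ ⟨p, rfl⟩
  exact ⟨rm (SSet.Subcomplex.homOfLE (X.skeleton.monotone h)) p, (rm_comp _ _ p).symm⟩

/-- compact sets lie in skeleta -/
theorem exists_Bs {K : Set (Re X)} (hK : IsCompact K) : ∃ n, K ⊆ Bs X n := by
  by_contra h
  push Not at h
  have h' : ∀ n, ∃ p ∈ K, p ∉ Bs X n := fun n => Set.not_subset.1 (h n)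
  choose p hpK hp using h'
  have hcl : ∀ n, IsClosed (p '' {m | n ≤ m}) := by
    intro n
    rw [isClosed_iff]
    intro k x
    have : chr X x ⁻¹' (p '' {m | n ≤ m}) = ⋃ (m : Fin (k + 1)) (_ : n ≤ m), chr X x ⁻¹' {p m} := by
      ext t
      simp only [Set.mem_iUnion]
      constructor
      · rintro ⟨m, hm, he⟩
        have h1 : m < k + 1 := by
          by_contra hmk
          apply hp m
          rw [he]
          exact chr_mem (by omega) x t
        exact ⟨⟨m, h1⟩, hm, he.symm⟩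
      · rintro ⟨m, hm, he⟩
        exact ⟨m, hm, he.symm⟩
    rw [this]
    refine isClosed_iUnion_of_finite fun m => ?_
    refine isClosed_iUnion_of_finite fun _ => ?_
    exact (isClosed_point _).preimage (chr X x).continuous
  obtain ⟨q, hq⟩ := IsCompact.nonempty_iInter_of_sequence_nonempty_isCompact_isClosed
    (fun n => p '' {m | n ≤ m}) (fun n => Set.image_mono fun m hm => by
      simp only [Set.mem_ofPred_eq] at hm ⊢; omega)
    (fun n => ⟨p n, n, le_refl n, rfl⟩)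
    (hK.of_isClosed_subset (hcl 0) (by rintro _ ⟨m, -, rfl⟩; exact hpK m)) hcl
  obtain ⟨k, x, t, rfl⟩ := exists_chr q
  obtain ⟨m, hm, he⟩ := Set.mem_iInter.1 hq (k + 1)
  apply hp m
  rw [he]
  exact chr_mem (by simp only [Set.mem_ofPred_eq] at hm; omega) x t

end Vale.Agent.P213Z
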